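import Vale.Agent.P236B.ResD

/-!
# P236N: the small complex of a resolution and the output of the comparison

* `A = F₃[v₁, v₂, …]`, `Gam = A[t₁, t₂, …]`, `eta`;
* `ac R s y w`: the action of `y : Gam` from level `s` to level `s + 1`, `dW R s = ac R s 1`;
* `ClFacts`: the classes of degree one and two which are used as multipliers;
* `Cmp`: the output of the comparison of the small complex with `HQ`.

All degrees are weights: `v₁` and `t₁` have weight two.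
-/

noncomputable section

namespace Vale.Agent.P236N

open MvPolynomial Vale.Agent.P236B Vale.Agent.P236T Vale.Agent.P251.F Vale.Agent.P251.I Finset
  Vale.Agent.P257.H314

/-- the prime field -/
abbrev F3 : Type := ZMod 3

/-- `F₃[v₁, v₂, …]`, `X k = v_{k+1}` -/
abbrev A : Type := MvPolynomial ℕ F3

/-- `A[t₁, t₂, …]`, `X k = t_{k+1}` -/
abbrev Gam : Type := MvPolynomial ℕ A

/-- the right unit -/
def eta : A →+* Gam := kx (C.comp C) (gT 3 (vmk X))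

/-- `c` is homogeneous of weight `w` -/
def HomA (w : ℕ) (c : A) : Prop := ∀ α, coeff α c ≠ 0 → wE 3 α = w

/-- `y` is homogeneous of weight `w` -/
def HomG (w : ℕ) (y : Gam) : Prop := ∀ E α, coeff α (coeff E y) ≠ 0 → wE 3 α + wE 3 E = w

/-- `y` is primitive -/
def Prim (y : Gam) : Prop := gD 3 (vmk X) y = C y + map eta y

section

variable {G : Type} [Fintype G] (R : Res 3 G)

/-- `w` is zero modulo `v₁ ^ m` -/
def Neg (m : ℕ) (w : G → A) : Prop := ∀ g, (X 0 : A) ^ m ∣ w g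

/-- `w` is homogeneous of weight `e` in level `s` -/
def HomW (s e : ℕ) (w : G → A) : Prop := ∀ g α, coeff α (w g) ≠ 0 → wE 3 α + R.deg s g = e

/-- the action of `y` from level `s` to level `s + 1` -/
def ac (s : ℕ) (y : Gam) (w : G → A) : G → A :=
  fun g' => ∑ g, act (R.a s g' g) C (vmk X) (y * eta (w g))

/-- the differential of the small complex -/
def dW (s : ℕ) (w : G → A) : G → A := ac R s 1 w

/-- the action of `τ² | τ + τ | τ²` -/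
def acB (s : ℕ) (τ : Gam) (w : G → A) : G → A :=
  ac R (s + 1) (τ ^ 2) (ac R s τ w) + ac R (s + 1) τ (ac R s (τ ^ 2) w)

end

/-! ### classes of degree one and two -/

/-- `Gam` as `Cx F3 1` -/
def toCx : Gam →+* Cx F3 1 := (rename fun k => ((0 : Fin 1), k)).toRingHom

/-- `x` is the class of `y`. -/
def Cl {u : ℤ} (x : HQ 1 u) (y : Gam) : Prop :=
  ∃ z hz dz, x = H.mk z hz dz ∧ dat3.pi 1 z = toCx y

/-- `x` is the class of `τ² | τ + τ | τ²`. -/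
def Bl {u : ℤ} (x : HQ 2 u) (τ : Gam) : Prop :=
  ∃ z hz dz, x = H.mk z hz dz ∧ dat3.pi 2 z =
    cpB 3 (a := 1) (b := 1) rfl (toCx (τ ^ 2)) (toCx τ) +
      cpB 3 (a := 1) (b := 1) rfl (toCx τ) (toCx (τ ^ 2))

/-- multiplication by `v₁ ^ m` -/
def vp {s : ℕ} : ∀ (m : ℕ) {u u' : ℤ}, u + 2 * m = u' → HQ s u →+ HQ s u'
  | 0, _, _, h => H.cup (zero_add s) (by omega) (H.one Q3)
  | m + 1, u, _, h => (H.cup (w := u + 2 * m) (zero_add s) (by omega) v1).comp (vp m rfl)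

/-- **The multipliers.** -/
structure ClFacts : Prop where
  ex : ∀ {e : ℕ} {u : ℤ} {y : Gam}, u = e → HomG e y → Prim y → ∃ x : HQ 1 u, Cl x y
  uniq : ∀ {u : ℤ} {x x' : HQ 1 u} {y : Gam}, Cl x y → Cl x' y → x = x'
  add : ∀ {u : ℤ} {x x' : HQ 1 u} {y y' : Gam}, Cl x y → Cl x' y' → Cl (x + x') (y + y')
  neg : ∀ {u : ℤ} {x : HQ 1 u} {y : Gam}, Cl x y → Cl (-x) (-y)
  v1 : ∀ {u u' : ℤ} (h : 2 + u = u') {x : HQ 1 u} {y : Gam}, Cl x y →
    Cl (H.cup (zero_add 1) h v1 x) (C (X 0) * y)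
  zero : ∀ {u : ℤ} {x : HQ 1 u} {c : A}, Cl x (eta c - C c) → x = 0
  h0 : Cl h0 (X 0)
  h1 : Cl h1 (X 0 ^ 3)
  b0 : Bl b0 (X 0)
  prim : ∀ j, Prim (X 0 ^ 3 ^ j)
  prim_div : ∀ {j : ℕ} {y : Gam} {c : A}, C (X 0) ^ j * y = eta c - C c → Prim y
  eta_v1 : eta (X 0) = C (X 0)
  eta_v2 : eta (X 1) = C (X 1) + C (X 0) * X 0 ^ 3 - C (X 0) ^ 3 * X 0
  homG_eta : ∀ {e : ℕ} {c : A}, HomA e c → HomG e (eta c)
  /-- the Bockstein of the class of `t₁ ^ 3 ^ (j + 1)` (the sign is fixed: `bock h1 = -b0`) -/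
  bock : ∀ {j : ℕ} {u : ℤ} {x : HQ 1 u}, Cl x (X 0 ^ 3 ^ (j + 1)) →
    Bl (-bock (t := 2) rfl x) (X 0 ^ 3 ^ j)
  /-- the shape needed in `Delta.Start` -/
  start : ∀ {q : ℕ} {u : ℤ} {x : HQ 1 u} {y : Gam}, Cl x y →
    y - X 0 ^ q ∈ Ideal.span {C (X 0), C (X 1)} →
    ∃ (h : Cob Laz 1) (hw : Cob.IsWt u h) (hd : Cob.d 1 h ∈ IC 3 1 2) (n : ℕ),
      x = cl h hw hd ∧ h - (1 : ℤ) * t1 ^ q ∈ IC 3 n 1

/-- **The output of the comparison**: `Rep m x w` says that `w` represents the image of `x` in the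
cohomology of the small complex modulo `v₁ ^ m`.  `T s` is the range of weights in level `s`. -/
structure Cmp {G : Type} [Fintype G] (R : Res 3 G) (M : ℕ) (T : ℕ → ℕ) where
  /-- the relation -/
  Rep : ℕ → ∀ {s : ℕ} {u : ℤ}, HQ s u → (G → A) → Prop
  ex : ∀ {s e : ℕ} {u : ℤ}, u = e → ∀ x : HQ s u, ∃ w, HomW R s e w ∧ ∀ m, Rep m x w
  mono : ∀ {m m' s : ℕ} {u : ℤ} {x : HQ s u} {w : G → A}, m' ≤ m → Rep m x w → Rep m' x w
  zero : ∀ (m s : ℕ) (u : ℤ), Rep m (0 : HQ s u) 0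
  add : ∀ {m s : ℕ} {u : ℤ} {x x' : HQ s u} {w w' : G → A}, Rep m x w → Rep m x' w' →
    Rep m (x + x') (w + w')
  neg : ∀ {m s : ℕ} {u : ℤ} {x : HQ s u} {w : G → A}, Rep m x w → Rep m (-x) (-w)
  one : ∀ m {w : G → A}, w R.g0 = 1 → (∀ g ≠ R.g0, w g = 0) → Rep m (H.one Q3) w
  congr : ∀ {m s : ℕ} {u : ℤ} {x : HQ s u} {w w' : G → A}, Rep m x w → Neg m (w - w') →
    Rep m x w'
  congr_d : ∀ {m s e : ℕ} {u : ℤ} {x : HQ (s + 1) u} {w c : G → A}, u = e → Rep m x w →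
    HomW R s e c → Rep m x (w + dW R s c)
  cyc : ∀ {m s e : ℕ} {u : ℤ} {x : HQ s u} {w : G → A}, m ≤ M → e ≤ T s → u = e →
    Rep m x w → Neg m (dW R s w)
  of_zero : ∀ {m s e : ℕ} {u : ℤ} {w : G → A}, m ≤ M → e ≤ T (s + 1) → u = e →
    Rep m (0 : HQ (s + 1) u) w → ∃ c, HomW R s e c ∧ Neg m (w - dW R s c)
  v1 : ∀ {m s : ℕ} {u u' : ℤ} (h : 2 + u = u') {x : HQ s u} {w : G → A}, Rep m x w →
    Rep (m + 1) (H.cup (zero_add s) h v1 x) ((X 0 : A) • w)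
  mul : ∀ {m s n e f : ℕ} {u v r : ℤ} (hs : 1 + s = n) (hu : v + u = r) {x : HQ 1 v} {y : Gam}
    {z : HQ s u} {w : G → A}, m ≤ M → f + e ≤ T n → v = f → u = e → Cl x y →
    Rep m z w → Rep m (H.cup hs hu x z) (ac R s y w)
  mulB : ∀ {m s n e f : ℕ} {u v r : ℤ} (hs : 2 + s = n) (hu : v + u = r) {x : HQ 2 v} {τ : Gam}
    {z : HQ s u} {w : G → A}, m ≤ M → 3 * f + e ≤ T n → v = (3 * f : ℕ) → u = e →
    HomG f τ → Prim τ → Bl x τ → Rep m z w → Rep m (H.cup hs hu x z) (acB R s τ w)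
  inj : ∀ {m s e : ℕ} {u u' : ℤ} (h : u' + 2 * m = u) {x : HQ s u}, m ≤ M → e ≤ T s →
    u = e → Rep m x 0 → ∃ x' : HQ s u', x = vp m h x'
  surj : ∀ {r s e : ℕ} {u u' u'' : ℤ} (h : u' + 2 * r = u'') {w : G → A}, r ≤ M → e ≤ T s →
    u = e → u' + 2 * M = u → HomW R s e w → Neg M (dW R s w) →
    (∀ x : HQ (s + 1) u', vp r h x = 0) → ∃ x : HQ s u, Rep (M - r) x w

end Vale.Agent.P236N

end
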