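import Vale.Agent.P236N.Ex

/-!
# P236N: the check of the products in pieces
-/

namespace Vale.Agent.P236N.Dat

variable (D : Dat)

/-- the check of a list of blocks -/
def ckB (s : Nat) (l : List Bk) : Bool := l.all fun B =>
  Nat.ble B.i 6 && Nat.ble (mA B.i + s) 32 && Nat.ble (mF B.i + B.d) 90 &&
    Nat.ble B.r.length (D.pos s B.d).length && (List.range B.r.length).all fun k =>
      D.rok (mA B.i + s) (mF B.i + B.d) B.i (D.src s B.d k) (B.rw k)

variable {D}

theorem ckB_cut {s : Nat} {l : List Bk} {n : Nat} (h1 : D.ckB s (l.take n) = true)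
    (h2 : D.ckB s (l.drop n) = true) : D.ckB s l = true := by
  rw [← List.take_append_drop n l, ckB, List.all_append, Bool.and_eq_true]
  exact ⟨h1, h2⟩

theorem ckR_of {s : Nat} (h : D.ckB s (D.rb s) = true) : D.ckR s = true := h

theorem lev_of {s : Nat} (h1 : D.shape s = true) (h2 : D.ck1 s = true) (h3 : D.ck2 s = true)
    (h4 : D.ckK s = true) (h5 : D.ckG s = true) (h6 : D.ckR s = true) : D.lev s = true := by
  rw [lev, h1, h2, h3, h4, h5, h6]
  rfl

end Vale.Agent.P236N.Dat
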