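/-!
# P236N: the executable definitions

Packed vectors, the monomial basis, claims, the data of the normal forms and the checks.
-/

namespace Vale.Agent.P236N

/-- two bit planes -/
abbrev TV : Type := Nat × Nat

namespace TV

/-- the planes are disjoint -/
def wf (x : TV) : Bool := Nat.beq (Nat.land x.1 x.2) 0

/-- sum -/
def add (x y : TV) : TV :=
  let t := Nat.xor (Nat.lor x.1 y.2) (Nat.lor x.2 y.1)
  (Nat.xor (Nat.lor x.2 y.2) t, Nat.xor (Nat.lor x.1 y.1) t)

/-- negative -/
def neg (x : TV) : TV := (x.2, x.1)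

/-- shift to the left -/
def shl (x : TV) (k : Nat) : TV := (Nat.shiftLeft x.1 k, Nat.shiftLeft x.2 k)

/-- shift to the right -/
def shr (x : TV) (k : Nat) : TV := (Nat.shiftRight x.1 k, Nat.shiftRight x.2 k)

/-- restriction to a mask -/
def msk (x : TV) (m : Nat) : TV := (Nat.land x.1 m, Nat.land x.2 m)

/-- the low entries -/
def low (x : TV) (k : Nat) : TV := (Nat.mod x.1 (Nat.pow 2 k), Nat.mod x.2 (Nat.pow 2 k))

/-- equality test -/
def eq (x y : TV) : Bool := Nat.beq x.1 y.1 && Nat.beq x.2 y.2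

/-- the combination of the rows with the coefficients `(p, n)` -/
def mv : List TV → Nat → Nat → TV
  | [], _, _ => (0, 0)
  | r :: rs, p, n =>
    let a := mv rs (Nat.div p 2) (Nat.div n 2)
    let b := bif Nat.beq (Nat.mod p 2) 1 then add a r else a
    bif Nat.beq (Nat.mod n 2) 1 then add b (neg r) else b

/-- the same for a list of windows -/
def mvW : List (List TV) → Nat → Nat → TV
  | [], _, _ => (0, 0)
  | t :: ts, p, n => add (mv t p n) (shl (mvW ts (Nat.shiftRight p 64) (Nat.shiftRight n 64)) 64)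

end TV

/-- the windows of degrees `d, d - 1, …` -/
def win {α : Type} (B : Nat → α) : Nat → Nat → List α
  | 0, _ => []
  | _ + 1, 0 => [B 0]
  | m + 1, d + 1 => B (d + 1) :: win B m d

/-- generator and exponents of `v₂`, `v₃`, `v₄` -/
abbrev Q4 : Type := Nat × Nat × Nat × Nat

/-- the monomials in `v₂`, `v₃`, `v₄` by degree -/
def mlT : List (List (Nat × Nat × Nat)) :=
  [[(0, 0, 0)], [], [], [], [(1, 0, 0)], [], [], [], [(2, 0, 0)], [], [], [], [(3, 0, 0)],
   [(0, 1, 0)], [], [], [(4, 0, 0)], [(1, 1, 0)], [], [], [(5, 0, 0)], [(2, 1, 0)], [], [],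
   [(6, 0, 0)], [(3, 1, 0)], [(0, 2, 0)], [], [(7, 0, 0)], [(4, 1, 0)], [(1, 2, 0)], [],
   [(8, 0, 0)], [(5, 1, 0)], [(2, 2, 0)], [], [(9, 0, 0)], [(6, 1, 0)], [(3, 2, 0)], [(0, 3, 0)],
   [(10, 0, 0), (0, 0, 1)], [(7, 1, 0)], [(4, 2, 0)], [(1, 3, 0)], [(11, 0, 0), (1, 0, 1)],
   [(8, 1, 0)], [(5, 2, 0)], [(2, 3, 0)], [(12, 0, 0), (2, 0, 1)], [(9, 1, 0)], [(6, 2, 0)],
   [(3, 3, 0)], [(13, 0, 0), (0, 4, 0), (3, 0, 1)], [(10, 1, 0), (0, 1, 1)], [(7, 2, 0)],
   [(4, 3, 0)], [(14, 0, 0), (1, 4, 0), (4, 0, 1)], [(11, 1, 0), (1, 1, 1)], [(8, 2, 0)],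
   [(5, 3, 0)], [(15, 0, 0), (2, 4, 0), (5, 0, 1)], [(12, 1, 0), (2, 1, 1)], [(9, 2, 0)],
   [(6, 3, 0)], [(16, 0, 0), (3, 4, 0), (6, 0, 1)], [(13, 1, 0), (0, 5, 0), (3, 1, 1)],
   [(10, 2, 0), (0, 2, 1)], [(7, 3, 0)], [(17, 0, 0), (4, 4, 0), (7, 0, 1)],
   [(14, 1, 0), (1, 5, 0), (4, 1, 1)], [(11, 2, 0), (1, 2, 1)], [(8, 3, 0)],
   [(18, 0, 0), (5, 4, 0), (8, 0, 1)], [(15, 1, 0), (2, 5, 0), (5, 1, 1)],
   [(12, 2, 0), (2, 2, 1)], [(9, 3, 0)], [(19, 0, 0), (6, 4, 0), (9, 0, 1)],
   [(16, 1, 0), (3, 5, 0), (6, 1, 1)], [(13, 2, 0), (0, 6, 0), (3, 2, 1)],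
   [(10, 3, 0), (0, 3, 1)], [(20, 0, 0), (7, 4, 0), (10, 0, 1), (0, 0, 2)],
   [(17, 1, 0), (4, 5, 0), (7, 1, 1)], [(14, 2, 0), (1, 6, 0), (4, 2, 1)],
   [(11, 3, 0), (1, 3, 1)], [(21, 0, 0), (8, 4, 0), (11, 0, 1), (1, 0, 2)],
   [(18, 1, 0), (5, 5, 0), (8, 1, 1)], [(15, 2, 0), (2, 6, 0), (5, 2, 1)],
   [(12, 3, 0), (2, 3, 1)], [(22, 0, 0), (9, 4, 0), (12, 0, 1), (2, 0, 2)],
   [(19, 1, 0), (6, 5, 0), (9, 1, 1)], [(16, 2, 0), (3, 6, 0), (6, 2, 1)],
   [(13, 3, 0), (0, 7, 0), (3, 3, 1)], [(23, 0, 0), (10, 4, 0), (13, 0, 1), (0, 4, 1), (3, 0, 2)]]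

/-- the monomial basis in degree `e`, `dl` is the list of the degrees of the generators -/
def sl (e : Nat) : List Nat → Nat → List Q4
  | [], _ => []
  | r :: dl, i => (bif Nat.ble r e then (mlT.getD (Nat.sub e r) []).map fun q => (i, q) else []) ++
      sl e dl (Nat.succ i)

/-- the same list, empty above degree `92` -/
def sl0 (dl : List Nat) (e : Nat) : List Q4 := bif Nat.ble e 92 then sl e dl 0 else []

/-- a claim: `y · x = z` modulo `v₁ ^ m`, where `x` has degree `d` and `y` has degree `f` -/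
structure Cm where
  /-- degree of `x` -/
  d : Nat
  /-- degree of `y` -/
  f : Nat
  /-- precision -/
  m : Nat
  /-- multiplier -/
  y : List Q4
  /-- source -/
  x : TV
  /-- target -/
  z : TV

/-- cohomological degrees of the multipliers `v₁, h₀, h₁, β₂', b₀, b₁, η` -/
def mA : Nat → Nat
  | 0 => 0
  | 4 => 2
  | 5 => 2
  | _ => 1

/-- degrees of the multipliers `v₁, h₀, h₁, β₂', b₀, b₁, η` -/
def mF : Nat → Nat
  | 0 => 1
  | 1 => 1
  | 2 => 3
  | 3 => 7
  | 4 => 3
  | 5 => 9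
  | _ => 27

/-- a certificate for a product: compact coordinates, full coordinates, intermediate vectors -/
structure Rw where
  /-- coordinates on the named classes -/
  p : TV
  /-- coordinates on the normal form -/
  c : TV
  /-- the values of the actions -/
  z : List TV

/-- the products of the multiplier `i` with the named classes of degree `d` -/
structure Bk where
  /-- multiplier -/
  i : Nat
  /-- degree -/
  d : Nat
  /-- certificates -/
  r : List Rw

/-- the data -/
structure Dat where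
  /-- degrees of the generators -/
  dl : Nat → List Nat
  /-- the vectors of the normal form -/
  B : Nat → List (List TV)
  /-- codes of the targets -/
  t : Nat → List (List Nat)
  /-- codes of the sources -/
  sr : Nat → List (List Nat)
  /-- the degrees which are killed by `v₁ ^ 3` -/
  kt : Nat → Nat
  /-- the products -/
  rb : Nat → List Bk
  /-- the product `b₁ · 1` -/
  r1 : Rw

/-- `β₂'` modulo `v₁ ^ 3` -/
def yB : List Q4 := [(2, 0, 1, 3), (1, 1, 0, 6), (1, 2, 1, 1)]

/-- `η` modulo `v₁ ^ 3` -/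
def yE : List Q4 := [(1, 0, 0, 27), (2, 0, 6, 3), (1, 2, 6, 1), (1, 2, 4, 9)]

/-- `t₁ ^ k` -/
def lT (k : Nat) : List Q4 := [(1, 0, 0, k)]

/-- the multipliers of degree one -/
def yl : Nat → List Q4
  | 1 => lT 1
  | 2 => lT 3
  | 3 => yB
  | _ => yE

/-- the leading entry of the `k`-th vector is in position `k` -/
def tri : List TV → Nat → Bool
  | [], _ => true
  | r :: rs, k => Nat.beq (Nat.shiftRight (Nat.mod (Nat.lor r.1 r.2) (Nat.pow 2 64)) k) 1 &&
      tri rs (Nat.succ k)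

/-- the value in the window of the position `q` -/
def wn {α : Type} (L : Nat → α) (d q : Nat) : α :=
  bif Nat.blt q 64 then L d else bif Nat.blt q 128 then L (Nat.sub d 1) else L (Nat.sub d 2)

/-- the mask of a list of positions -/
def mkm : List Nat → Nat
  | [] => 0
  | q :: l => Nat.lor (Nat.pow 2 q) (mkm l)

/-- the length of the bar of a code -/
def ca (c : Nat) : Nat := Nat.div (Nat.pred c) 64

/-- the index of a code -/
def ck (c : Nat) : Nat := Nat.mod (Nat.pred c) 64

/-- the code -/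
def cd (a k : Nat) : Nat := Nat.succ (Nat.add (Nat.mul 64 a) k)

namespace Rw

/-- the intermediate vectors -/
def zi (r : Rw) (k : Nat) : TV := r.z.getD k (0, 0)

/-- the product -/
def zz (r : Rw) (x : TV) : Nat → TV
  | 0 => x.shl 64
  | 4 => (r.zi 2).add (r.zi 3)
  | 5 => (r.zi 2).add (r.zi 3)
  | _ => r.zi 0

/-- the claims in the level of the source -/
def cl0 (r : Rw) (d : Nat) (x : TV) : Nat → List Cm
  | 0 => []
  | 4 => [⟨d, 1, 3, lT 1, x, r.zi 0⟩, ⟨d, 2, 3, lT 2, x, r.zi 1⟩]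
  | 5 => [⟨d, 3, 3, lT 3, x, r.zi 0⟩, ⟨d, 6, 3, lT 6, x, r.zi 1⟩]
  | i => [⟨d, mF i, 3, yl i, x, r.zi 0⟩]

/-- the claims in the next level -/
def cl1 (r : Rw) (d : Nat) : Nat → List Cm
  | 4 => [⟨d + 1, 2, 3, lT 2, r.zi 0, r.zi 2⟩, ⟨d + 2, 1, 3, lT 1, r.zi 1, r.zi 3⟩]
  | 5 => [⟨d + 3, 6, 3, lT 6, r.zi 0, r.zi 2⟩, ⟨d + 6, 3, 3, lT 3, r.zi 1, r.zi 3⟩]
  | _ => []

/-- the check of the coordinates -/
def ok (r : Rw) (W : List (List TV)) (E : List TV) (m i : Nat) (x : TV) : Bool :=
  r.c.wf && (r.zi 2).wf && (r.zi 3).wf &&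
    ((TV.mvW W r.c.1 r.c.2).low 192).eq ((r.zz x i).low 192) &&
    ((r.c.add (TV.mv E r.p.1 r.p.2).neg).msk m).eq (0, 0)

end Rw

namespace Dat

variable (D : Dat)

/-- the vectors in a bidegree -/
def b (s e : Nat) : List TV := bif Nat.ble s 33 then (D.B s).getD e [] else []

/-- their number -/
def n (s e : Nat) : Nat := (D.b s e).length

/-- one vector -/
def bv (s e k : Nat) : TV := (D.b s e).getD k (0, 0)

/-- codes of the targets -/
def tl (s e : Nat) : List Nat := (D.t s).getD e []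

/-- codes of the sources -/
def rl (s e : Nat) : List Nat := (D.sr s).getD e []

/-- code of the target -/
def tt (s e k : Nat) : Nat := (D.tl s e).getD k 0

/-- code of the source -/
def ss (s e k : Nat) : Nat := (D.rl s e).getD k 0

/-- sizes and triangularity -/
def shape (s : Nat) : Bool :=
  ((D.B s).all fun l => l.all TV.wf && Nat.ble l.length 64) &&
  ((List.range 93).all fun e => Nat.ble (sl0 (D.dl s) e).length 64) &&
  (List.range 91).all fun e => Nat.beq (D.n s e) (sl0 (D.dl s) e).length && tri (D.b s e) 0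

/-- the targets point back -/
def ck1 (s : Nat) : Bool := (List.range 91).all fun e => (List.range (D.n s e)).all fun k =>
  let c := D.tt s e k
  Nat.beq c 0 || (Nat.ble (ca c) e && Nat.blt (ck c) (D.n (s + 1) (Nat.sub e (ca c))) &&
    Nat.beq (D.ss (s + 1) (Nat.sub e (ca c)) (ck c)) (cd (ca c) k))

/-- the sources point back -/
def ck2 (s : Nat) : Bool := (List.range 91).all fun e => (List.range (D.n (s + 1) e)).all fun k =>
  let c := D.ss (s + 1) e k
  Nat.beq c 0 || (Nat.ble (Nat.add e (ca c)) 90 && Nat.blt (ck c) (D.n s (Nat.add e (ca c))) &&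
    Nat.beq (D.tt s (Nat.add e (ca c)) (ck c)) (cd (ca c) k))

/-- the positions of the three windows -/
def cand (s d : Nat) : List Nat := (List.range 192).filter fun q =>
  Nat.ble (Nat.div q 64) d && Nat.blt (Nat.mod q 64) (wn (D.n s) d q)

/-- code of the target of a position -/
def tq (s d q : Nat) : Nat := (wn (D.tl s) d q).getD (Nat.mod q 64) 0

/-- code of the source of a position -/
def sq (s d q : Nat) : Nat := (wn (D.rl s) d q).getD (Nat.mod q 64) 0

/-- source of a short bar -/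
def isS (s d q : Nat) : Bool :=
  let c := D.tq s d q
  !Nat.beq c 0 && Nat.blt (Nat.add (ca c) (Nat.div q 64)) 6

/-- dead in degree `d + x` -/
def isD (s d x q : Nat) : Bool :=
  let c := D.sq s d q
  !Nat.beq c 0 && Nat.ble (ca c) (Nat.add (Nat.div q 64) x)

/-- `v₁ ^ 3` kills the bidegree -/
def ktb (s e : Nat) : Bool := Nat.testBit (D.kt s) e

/-- the class exists -/
def av (s e k : Nat) : Bool :=
  Nat.blt e 6 || D.ktb (s + 1) (Nat.sub e 6) || (Nat.beq s 1 && Nat.beq e 27 && Nat.beq k 2)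

/-- named position -/
def isN (s d q : Nat) : Bool :=
  Nat.beq (D.tq s d q) 0 && !D.isD s d 0 q && D.av s (Nat.sub d (Nat.div q 64)) (Nat.mod q 64)

/-- the named positions -/
def pos (s d : Nat) : List Nat :=
  bif Nat.ble 1 s && Nat.ble s 32 && Nat.ble d 90 then (D.cand s d).filter (D.isN s d) else []

/-- all positions are sources, dead or named -/
def cov (s d : Nat) : Bool := (D.cand s d).all fun q => D.isS s d q || D.isD s d 0 q || D.isN s d q

/-- the chain for the torsion -/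
def ckK (s : Nat) : Bool := (List.range 91).all fun e => !D.ktb s e ||
  (Nat.ble e 87 && (Nat.blt e 3 || D.ktb s (Nat.sub e 3)) &&
    (D.cand s e).all fun q => D.isS s e q || D.isD s e 3 q)

/-- bases -/
def ckG (s : Nat) : Bool := Nat.blt s 5 || (List.range 91).all fun d =>
  D.cov s d && (Nat.blt d 3 || D.ktb s (Nat.sub d 3) || (Nat.beq s 5 && Nat.blt 87 d))

/-- the mask of the live positions -/
def am (s d : Nat) : Nat := mkm ((D.cand s d).filter fun q => !D.isD s d 0 q)

/-- the representative of the `k`-th named class -/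
def src (s d k : Nat) : TV :=
  let q := (D.pos s d).getD k 0
  (D.bv s (Nat.sub d (Nat.div q 64)) (Nat.mod q 64)).shl (Nat.mul 64 (Nat.div q 64))

/-- the check of one product with target `(t, e)` -/
def rok (t e i : Nat) (x : TV) (r : Rw) : Bool :=
  r.ok (win (D.b t) 3 e) ((D.pos t e).map fun q => (Nat.pow 2 q, 0)) (D.am t e) i x

/-- the `k`-th certificate -/
def _root_.Vale.Agent.P236N.Bk.rw (B : Bk) (k : Nat) : Rw := B.r.getD k ⟨(0, 0), (0, 0), []⟩

/-- the check of the products -/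
def ckR (s : Nat) : Bool := (D.rb s).all fun B =>
  Nat.ble B.i 6 && Nat.ble (mA B.i + s) 32 && Nat.ble (mF B.i + B.d) 90 &&
    Nat.ble B.r.length (D.pos s B.d).length && (List.range B.r.length).all fun k =>
      D.rok (mA B.i + s) (mF B.i + B.d) B.i (D.src s B.d k) (B.rw k)

/-- all checks of a level `1 ≤ s ≤ 32` -/
def lev (s : Nat) : Bool := D.shape s && D.ck1 s && D.ck2 s && D.ckK s && D.ckG s && D.ckR s

/-- the remaining checks -/
def rest : Bool := D.shape 0 && D.ck1 0 && D.ck2 0 && D.shape 33 &&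
  ((List.range 91).all fun e => !D.ktb 33 e || Nat.blt e 3 || D.ktb 31 (Nat.sub e 3)) &&
  decide (sl0 (D.dl 0) 0 = [(0, 0, 0, 0)]) && decide (D.pos 1 27 = [2]) &&
  Nat.beq (D.pos 2 9).length 1 && D.cov 2 9 && D.ktb 2 6 && D.cov 4 54 &&
  D.rok 2 9 5 (1, 0) D.r1 && D.r1.p.eq (1, 0)

/-- the claims for the differential in degree `e` -/
def nfC (s e : Nat) : List Cm := (List.range (D.n s e)).map fun k =>
  let c := D.tt s e k
  ⟨e, 0, 6, lT 0, D.bv s e k, bif Nat.beq c 0 then (0, 0) else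
    (D.bv (s + 1) (Nat.sub e (ca c)) (ck c)).shl (Nat.mul 64 (ca c))⟩

/-- the claims for the products, first step -/
def c0 (s : Nat) : List Cm := (D.rb s).flatMap fun B => (List.range B.r.length).flatMap fun k =>
  (B.rw k).cl0 B.d (D.src s B.d k) B.i

/-- the claims for the products, second step -/
def c1 (s : Nat) : List Cm := (D.rb s).flatMap fun B => (List.range B.r.length).flatMap fun k =>
  (B.rw k).cl1 B.d B.i

/-- the claims for the products in level `s` -/
def prC : Nat → List Cm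
  | 0 => ⟨0, 27, 3, yE, (1, 0), D.bv 1 27 2⟩ :: D.r1.cl0 0 (1, 0) 5
  | 1 => D.c0 1 ++ D.r1.cl1 0 5
  | s + 2 => D.c0 (s + 2) ++ D.c1 (s + 1)

/-- all claims of level `s` -/
def allC (s : Nat) : List Cm := (List.range 91).flatMap (D.nfC s) ++ D.prC s

/-- the products of level `s` -/
def PL (s : Nat) : List (Nat × Nat × Nat × Nat × TV) := (D.rb s).flatMap fun B =>
  (List.range B.r.length).map fun k => (B.i, s, B.d, k, (B.rw k).p)

/-- all products -/
def P : List (Nat × Nat × Nat × Nat × TV) := (List.range 32).flatMap fun s => D.PL (s + 1)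

/-- the numbers of named classes -/
def ckN (N : List (List Nat)) (s : Nat) : Bool :=
  (List.range 91).all fun d => Nat.beq (D.pos s d).length ((N.getD s []).getD d 0)

/-- `q` is the product of the multiplier `i` with the named class `(s, d, k)` -/
def has (s i d k : Nat) (q : TV) : Bool := Nat.ble 1 s && Nat.ble s 32 && (D.rb s).any fun B =>
  Nat.beq B.i i && Nat.beq B.d d && Nat.blt k B.r.length && (B.rw k).p.eq q

end Dat

end Vale.Agent.P236N
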