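import Vale.Agent.P236N.Defs

/-!
# P236N: the multiplier classes
-/

noncomputable section

namespace Vale.Agent.P236N

open MvPolynomial Vale.Agent.P236B Vale.Agent.P236T Vale.Agent.P251.F Vale.Agent.P251.I Finset
  Vale.Agent.P257.H314 Vale.Agent.P257.H80

namespace ClP

variable {R : Type} [CommRing R] {u : ℤ} {y : Gam}

/-- evaluation on an arrow -/
def eg (κ : F3 →+* R) (v : VPt R) (t : ℕ → R) : Gam →+* R := eval₂Hom (kx κ v) t

theorem eg_C (κ : F3 →+* R) (v : VPt R) (t : ℕ → R) (c : A) : eg κ v t (C c) = kx κ v c :=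
  eval₂Hom_C _ _ _

theorem eg_X (κ : F3 →+* R) (v : VPt R) (t : ℕ → R) (k : ℕ) : eg κ v t (X k) = t k :=
  eval₂Hom_X' _ _ _

theorem toCx_C (a : A) : toCx (C a) = C a := rename_C _ _

theorem toCx_X (k : ℕ) : toCx (X k) = X (0, k) := rename_X _ _

theorem evP_toCx (κ : F3 →+* R) (c : Path R) (y : Gam) :
    evP κ c (toCx y) = eg κ c.v (c.t 0) y :=
  RingHom.congr_fun (f := (evP κ c).comp toCx) (MvPolynomial.ringHom_ext
    (fun a => by rw [RingHom.comp_apply, toCx_C, evP_C, eg_C]) fun k => by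
      rw [RingHom.comp_apply, toCx_X, evP_X, eg_X]; rfl) y

theorem three_eq (κ : F3 →+* R) : (3 : R) = 0 := by
  rw [← map_ofNat κ 3]
  exact (congrArg κ (by decide : (3 : ZMod 3) = 0)).trans (map_zero κ)

section

variable [ZP 3 R]

theorem eg_eta (κ : F3 →+* R) (v : VPt R) (t : ℕ → R) (c : A) :
    eg κ v t (eta c) = kx κ (tgt 3 v t) c := by
  have h : (eg κ v t).comp C = kx κ v := RingHom.ext (eg_C κ v t)
  rw [← RingHom.comp_apply, eta, comp_kx, comp_gT, h, kx_comp_vmk, funext (eg_X κ v t),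
    RingHom.ext_zmod ((eg κ v t).comp _) κ]

theorem exists_univ (v : VPt R) (t s : ℕ → R) : ∃ θ : MvPolynomial (ℕ × ℕ) ℤ_[3] →+* R,
    θ.comp (vmk fun k => X (0, k)) = v ∧ (fun k => θ (X (1, k))) = t ∧
      (fun k => θ (X (2, k))) = s := by
  obtain ⟨ζ⟩ := ZP.ne (p := 3) (B := R)
  exact ⟨eval₂Hom ζ fun i => if i.1 = 0 then v (X i.2) else if i.1 = 1 then t i.2 else s i.2,
    VPt.ext fun k => by simp, funext fun k => by simp, funext fun k => by simp⟩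

theorem three_ne : (3 : MvPolynomial (ℕ × ℕ) ℤ_[3]) ≠ 0 := by
  rw [← map_ofNat C 3]
  exact C_ne_zero.2 (by norm_num)

theorem mm_one : mm 3 1 = X 0 := by simp [mm_succ, mm_zero]

theorem mm_two : mm 3 2 = 3 * X 1 + X 0 ^ 4 := by
  rw [mm_succ, Finset.sum_range_succ, Finset.sum_range_one, mm_zero, mm_one]
  simp
  ring

theorem cmp_zero (v : VPt R) (t s : ℕ → R) : cmp 3 v t s 0 = t 0 + s 0 := by
  obtain ⟨θ, rfl, rfl, rfl⟩ := exists_univ v t s
  rw [← cmp_map, ← map_add]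
  congr 1
  have h := cmp_mm 3 (B := MvPolynomial (ℕ × ℕ) ℤ_[3]) (vmk fun k => X (0, k))
    (fun k => X (1, k)) (fun k => X (2, k)) 1
  simp only [Finset.sum_range_succ, Finset.sum_range_zero, mm_zero, tt_zero, tt_succ, map_one,
    Nat.sub_self, Nat.sub_zero, pow_zero, pow_one, one_pow, zero_add, mul_one, one_mul,
    Nat.cast_ofNat] at h
  refine mul_left_cancel₀ three_ne ?_
  linear_combination h

theorem tgt_one (v : VPt R) (t : ℕ → R) : tgt 3 v t (X 1) = v (X 1) + v (X 0) * t 0 ^ 3 -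
    v (X 0) ^ 3 * t 0 + 3 * (t 1 - v (X 0) ^ 3 * t 0 - 6 * v (X 0) ^ 2 * t 0 ^ 2 -
      12 * v (X 0) * t 0 ^ 3 - 9 * t 0 ^ 4) := by
  have key : ∀ (v : VPt (MvPolynomial (ℕ × ℕ) ℤ_[3])) t, tgt 3 v t (X 1) =
      v (X 1) + v (X 0) * t 0 ^ 3 - v (X 0) ^ 3 * t 0 + 3 * (t 1 - v (X 0) ^ 3 * t 0 -
        6 * v (X 0) ^ 2 * t 0 ^ 2 - 12 * v (X 0) * t 0 ^ 3 - 9 * t 0 ^ 4) := fun v t => by
    have h := tgt_mm 3 v t 2
    simp only [Finset.sum_range_succ, Finset.sum_range_zero, mm_zero, mm_one, mm_two, tt_zero,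
      tt_succ, map_one, Nat.sub_self, Nat.sub_zero, pow_zero, pow_one, one_pow, zero_add, mul_one,
      one_mul, Nat.cast_ofNat, map_add, map_mul, map_pow, map_ofNat, tgt_X_zero,
      Nat.add_one_sub_one] at h
    refine mul_left_cancel₀ three_ne ?_
    linear_combination h
  obtain ⟨θ, rfl, rfl, -⟩ := exists_univ v t t
  rw [← tgt_map, RingHom.comp_apply, key]
  simp only [map_add, map_sub, map_mul, map_pow, map_ofNat, RingHom.comp_apply]

theorem ev_dB (κ : F3 →+* R) (c : Path R) (y : Gam) : evP κ c (dB 3 1 (toCx y)) =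
    eg κ (tgt 3 c.v (c.t 0)) (c.t 1) y - eg κ c.v (cmp 3 c.v (c.t 0) (c.t 1)) y +
      eg κ c.v (c.t 0) y := by
  have h : ∀ i, evP κ c (cm 3 2 (sk i) (toCx y)) =
      eg κ (c.vert 3 (sk i 0)) (c.arr 3 (sk i 0) (sk i 1)) y := fun i => by
    rw [evP_cm 3 κ c fun j hj => (sk_le i j).trans (by omega), evP_toCx]; rfl
  rw [dB_apply, Finset.sum_range_succ, Finset.sum_range_succ, Finset.sum_range_one, map_add,
    map_add, map_zsmul, map_zsmul, map_zsmul, h, h, h]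
  change _ • eg κ (c.vert 3 1) (c.arr 3 1 (1 + 1)) y + _ • eg κ c.v (c.arr 3 0 (0 + 2)) y +
    _ • eg κ c.v (c.arr 3 0 (0 + 1)) y = _
  rw [Path.arr_succ, Path.arr_succ, Path.arr_add_two]
  simp only [pow_succ, pow_zero, mul_neg, mul_one, neg_neg, one_smul, neg_smul, ← sub_eq_add_neg]
  rfl

end

/-- additivity on composable arrows -/
def Ad (y : Gam) : Prop := ∀ (R : Type) [CommRing R] [ZP 3 R] (κ : F3 →+* R) (v : VPt R)
  (t s : ℕ → R), eg κ v (cmp 3 v t s) y = eg κ v t y + eg κ (tgt 3 v t) s y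

theorem prim_iff : Prim y ↔ Ad y := by
  have h : ∀ (R : Type) [CommRing R] [ZP 3 R] (κ : F3 →+* R) (v : VPt R) (t s : ℕ → R),
      eval₂Hom (eg κ v t) s (gD 3 (vmk X) y) = eg κ v (cmp 3 v t s) y ∧
      eval₂Hom (eg κ v t) s (C y + map eta y) = eg κ v t y + eg κ (tgt 3 v t) s y := by
    intro R _ _ κ v t s
    constructor
    · refine RingHom.congr_fun (f := (eval₂Hom (eg κ v t) s).comp (gD 3 (vmk X)))
        (MvPolynomial.ringHom_ext (fun a => ?_) fun k => ?_) y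
      · rw [RingHom.comp_apply, gD_C, eval₂Hom_C, eg_C, eg_C]
      · rw [RingHom.comp_apply, gD_X, eg_X]
        refine (cmp_map 3 (A := MvPolynomial ℕ Gam) (eval₂Hom (eg κ v t) s) _ _ _ _).trans ?_
        simp only [eval₂Hom_C, eval₂Hom_X', eg_X]
        exact congrArg (fun w => cmp 3 w _ _ k) (VPt.ext fun i => by
          simp only [RingHom.comp_apply, vmk_X, eval₂Hom_C, eg_C, kx_X])
    · rw [map_add, eval₂Hom_C]
      refine congrArg _ (RingHom.congr_fun (f := (eval₂Hom (eg κ v t) s).comp (map eta))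
        (MvPolynomial.ringHom_ext (fun a => ?_) fun k => ?_) y)
      · rw [RingHom.comp_apply, map_C, eval₂Hom_C, eg_eta, eg_C]
      · rw [RingHom.comp_apply, map_X, eval₂Hom_X', eg_X]
  refine ⟨fun e R _ _ κ v t s => by rw [← (h R κ v t s).1, e, (h R κ v t s).2], fun e => ?_⟩
  have h1 := h (MvPolynomial ℕ Gam) ((C.comp C).comp C) ((C.comp C).comp (vmk X))
    (fun k => C (X k)) X
  have h2 : eg (R := MvPolynomial ℕ Gam) ((C.comp C).comp C) ((C.comp C).comp (vmk X))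
      (fun k => C (X k)) = C := MvPolynomial.ringHom_ext (fun a => by
        rw [eg_C, ← comp_kx, kx_univ]; rfl) fun k => eg_X _ _ _ _
  rw [e, ← h1.2, h2] at h1
  simpa only [coe_eval₂Hom, eval₂_eta, Prim] using h1.1

theorem dB_iff : dB 3 1 (toCx y) = 0 ↔ Ad y := by
  refine ⟨fun e R _ _ κ v t s => ?_, fun e => ?_⟩
  · have h := ev_dB κ ⟨v, fun i => if i = 0 then t else s⟩ y
    rw [e, map_zero] at h
    simp only [if_true, one_ne_zero, if_false] at h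
    linear_combination h
  · rw [← evP_uP (dB 3 1 _), ev_dB, e]
    ring

theorem wtm_eq (E α : ℕ →₀ ℕ) :
    wtm 3 (E.mapDomain fun k => ((0 : Fin 1), k)) α = wE 3 α + wE 3 E := by
  rw [wtm, Finsupp.weight_apply (f := Finsupp.mapDomain _ _),
    Finsupp.sum_mapDomain_index (by simp) (by simp [add_mul]), ← Finsupp.weight_apply]

theorem bWt_toCx : BWt 3 u (toCx y) ↔
    ∀ E α, coeff α (coeff E y) ≠ 0 → ((wE 3 α + wE 3 E : ℕ) : ℤ) = u := by
  have h : ∀ E, coeff (E.mapDomain fun k => ((0 : Fin 1), k)) (toCx y) = coeff E y := fun E =>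
    coeff_rename_mapDomain _ (Prod.mk_right_injective _) y E
  rw [bWt_iff]
  refine ⟨fun e E α c => by rw [← wtm_eq, e _ α (by rwa [h])], fun e β α c => ?_⟩
  obtain ⟨E, rfl, -⟩ := coeff_rename_ne_zero (fun k => ((0 : Fin 1), k)) y β fun e' =>
    c (by rw [show coeff β (toCx y) = 0 from e', coeff_zero])
  rw [wtm_eq, e E α (by rwa [h] at c)]

theorem cm_C {n : ℕ} (f : ℕ → ℕ) (c : A) :
    cm 3 n f (C c : Cx F3 0) = kx (kap F3 n) ((uP F3 n).vert 3 (f 0)) c := evP_C _ _ _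

theorem toCx_eta (c : A) : toCx (eta c) = cm 3 1 (sk 0) (C c : Cx F3 0) := by
  rw [← evP_uP (toCx _), evP_toCx, eg_eta, cm_C]; rfl

theorem dB_C (c : A) : dB 3 0 (C c : Cx F3 0) = toCx (eta c - C c) := by
  rw [dB_apply, Finset.sum_range_succ, Finset.sum_range_one, map_sub, toCx_eta, toCx_C,
    cm_C (sk 1)]
  change _ + _ • kx _ (uP F3 1).v c = _
  rw [kx_uP, pow_zero, one_smul, pow_one, neg_smul, one_smul, sub_eq_add_neg]

theorem eta_v1 : eta (X 0) = C (X 0) := by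
  rw [eta, kx_X, gT, tgt_X_zero, Nat.cast_ofNat, three_eq (C.comp C), zero_mul, add_zero,
    RingHom.comp_apply, vmk_X]

theorem uniq {x x' : HQ 1 u} (h : Cl x y) (h' : Cl x' y) : x = x' := by
  obtain ⟨z, hz, dz, rfl, e⟩ := h
  obtain ⟨z', hz', dz', rfl, e'⟩ := h'
  exact H.mk_eq_mk.2 (dat3.mem_Bc_succ k3 (uq_zmod 3) (n := 0) (y := 0)
    (by rw [map_sub, dz, dz', sub_self]) (by rw [map_sub, e, e', sub_self, map_zero]))

theorem eg_span (κ : F3 →+* R) {q : ℕ} (e : y - X 0 ^ q ∈ Ideal.span {C (X 0), C (X 1)})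
    {v : VPt R} (h0 : v (X 0) = 0) (h1 : v (X 1) = 0) (t : ℕ → R) : eg κ v t y = t 0 ^ q := by
  obtain ⟨a, b, e⟩ := Ideal.mem_span_pair.1 e
  have := congrArg (eg κ v t) e
  rw [map_add, map_mul, map_mul, eg_C, eg_C, kx_X, kx_X, h0, h1, map_sub, map_pow, eg_X] at this
  linear_combination -this

theorem wt_eq {q : ℕ} (h : BWt 3 u (toCx y))
    (e : y - X 0 ^ q ∈ Ideal.span {C (X 0), C (X 1)}) : u = q * 2 := by
  classical
  obtain ⟨a, b, e⟩ := Ideal.mem_span_pair.1 e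
  have h1 := congrArg (fun z => constantCoeff (coeff (Finsupp.single 0 q) z)) e
  simp only [mul_comm _ (C _), coeff_add, coeff_C_mul, map_add, map_mul, constantCoeff_X, zero_mul,
    add_zero, coeff_sub, map_sub, coeff_X_pow, if_true, map_one] at h1
  have h2 := bWt_toCx.1 h (Finsupp.single 0 q) 0 (by
    rw [← constantCoeff_eq, sub_eq_zero.1 h1.symm]; exact one_ne_zero)
  rw [← h2, wE, wE, map_zero, zero_add, Finsupp.weight_single, smul_eq_mul]
  rfl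

theorem pi_cp (a b : ℕ) : dat3.pi 2 (rd 2 (cp (a := 1) (b := 1) rfl (t1 ^ a) (t1 ^ b))) =
    cpB 3 (a := 1) (b := 1) rfl (toCx (X 0 ^ a)) (toCx (X 0 ^ b)) := by
  simp only [rd_cp, Dat.pi_cp, map_pow, pi_t1, toCx_X]

theorem bock {j : ℕ} {x : HQ 1 u} (h : Cl x (X 0 ^ 3 ^ (j + 1))) :
    Bl (-P236T.bock (t := 2) rfl x) (X 0 ^ 3 ^ j) := by
  obtain rfl : u = (3 ^ (j + 1) : ℕ) * 2 := by
    obtain ⟨z, hz, -, -, e⟩ := h
    exact wt_eq (e ▸ dat3.bWt_pi hz) (by rw [sub_self]; exact zero_mem _)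
  obtain ⟨r, hr⟩ := exists_add_pow_prime_pow_eq Nat.prime_three (edge 2 0 1 t1) (edge 2 1 2 t1) j
  set q := 3 ^ j with hq
  set a := edge 2 0 1 t1 with ha
  set b := edge 2 1 2 t1 with hb
  have e : ∀ m n, cp (a := 1) (b := 1) (n := 2) rfl (t1 ^ m) (t1 ^ n) = a ^ m * b ^ n :=
    fun m n => by rw [cp, map_pow, map_pow, mp_eq_edge, mp_eq_edge]
  have h3 : (3 : ℤ) • (-(cp (a := 1) (b := 1) rfl (t1 ^ (q * 2)) (t1 ^ q) +
      cp (a := 1) (b := 1) rfl (t1 ^ q) (t1 ^ (q * 2))) - (3 : ℤ) • (a * b * r *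
        ((a ^ q + b ^ q) ^ 2 + 3 * (a ^ q + b ^ q) * (a * b * r) + 3 * (a * b * r) ^ 2))) =
      Cob.d 1 (t1 ^ 3 ^ (j + 1)) := by
    rw [← mp_id (Cob.d 1 _), mp_d_one, map_pow, map_pow, map_pow, edge_add d_t1 0 1 2, e, e,
      pow_succ 3 j, ← hq, ← ha, ← hb, pow_mul (a + b), hr]
    simp only [zsmul_eq_mul]
    push_cast
    ring
  have hw : Cob.IsWt (((3 ^ (j + 1) : ℕ) : ℤ) * 2) (t1 ^ 3 ^ (j + 1)) := isWt_t1.pow _
  obtain rfl : x = cl _ hw (d_mem_of_div h3) :=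
    uniq h ⟨_, _, _, rfl, by simp only [map_pow, pi_t1, toCx_X]⟩
  refine ⟨_, _, _, (congrArg Neg.neg (bock_cl hw h3)).trans (H.mk_neg _ _), ?_⟩
  rw [map_sub, rd_three, sub_zero, map_neg (rd 2), neg_neg, map_add, map_add, pi_cp, pi_cp,
    ← pow_mul]

theorem add_pow_of {q : ℕ} (h : Ad y) (e : y - X 0 ^ q ∈ Ideal.span {C (X 0), C (X 1)})
    (κ : F3 →+* R) (a b : R) : (a + b) ^ q = a ^ q + b ^ q := by
  have : ZP 3 R := ZP.map 3 κ
  have h1 := h R κ (vmk 0) (fun _ => a) fun _ => b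
  rwa [eg_span κ e (vmk_X _ _) (vmk_X _ _), eg_span κ e (vmk_X _ _) (vmk_X _ _), eg_span κ e
    (by simp [tgt_X_zero, three_eq κ]) (by simp [tgt_one, three_eq κ]), cmp_zero] at h1

theorem start {q : ℕ} {x : HQ 1 u} (h : Cl x y)
    (e : y - X 0 ^ q ∈ Ideal.span {C (X 0), C (X 1)}) :
    ∃ (h : Cob Laz 1) (hw : Cob.IsWt u h) (hd : Cob.d 1 h ∈ IC 3 1 2) (n : ℕ),
      x = cl h hw hd ∧ h - (1 : ℤ) * t1 ^ q ∈ IC 3 n 1 := by
  obtain ⟨z, hz, dz, rfl, ez⟩ := h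
  have bw : BWt 3 u (toCx y) := ez ▸ dat3.bWt_pi hz
  have db : dB 3 1 (toCx y) = 0 := by rw [← ez, ← Dat.pi_d, dz, map_zero]
  obtain rfl := wt_eq bw e
  have d1 : Cob.d 1 (rd 1 t1) = 0 := by rw [← rd_d, d_t1, map_zero]
  have e0 : ∀ w : Cob Q3 1, Cob.d 1 w = 0 → Cob.d 0 (hB 3 0 w) = sg 3 k3 1 (dat3.pi 1 w) - w :=
    fun w hw => by
      have := dat3.hB_d_add_d_hB k3 (n := 0) w
      rwa [hw, map_zero, zero_add (Cob.d 0 _)] at this
  have e1 := e0 _ d1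
  rw [pi_t1] at e1
  set c := hB 3 0 (rd 1 t1) with hc
  have wc : Cob.IsWt 2 c := isWt_hB 3 (isWt_rd isWt_t1)
  have e2 := e0 z dz
  rw [ez] at e2
  obtain ⟨h, hw, eh⟩ := exists_rd ((Cob.wt Q3 1 _).sub_mem (isWt_sg 3 k3 (uq_zmod 3) bw)
    (wc.pow q).d)
  have dh : Cob.d 1 (rd 1 h) = 0 := by
    rw [eh, map_sub, ← sg_dB 3 k3 (uq_zmod 3), db, map_zero, Cob.d_d, sub_zero]
  refine ⟨h, hw, rd_eq_zero.1 ((rd_d h).trans dh), 3, H.mk_eq_mk.2 ⟨c ^ q - hB 3 0 z, ?_⟩, ?_⟩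
  · rw [eh, map_sub, e2]
    ring
  have le : Laz.I 3 1 ≤ Laz.I 3 3 := Ideal.span_mono fun _ ⟨i, hi, e⟩ => ⟨i, by omega, e⟩
  let ψ : Cob Q3 1 →+* Cob (QI 3 3) 1 := MvPolynomial.map (Ideal.Quotient.factor le)
  have ψr : ∀ w, ψ (rd 1 w) = Cob.mapRing (Ideal.Quotient.mk (Laz.I 3 3)) 1 w := fun w =>
    map_map _ _ w
  have ψv : ∀ k < 2, ψ (sg 3 k3 1 (C (X k))) = 0 := fun k hk => by
    rw [sg, evP_C, kx_X]
    have h1 := mem_HI 3 (φ := (tP 3 (Cob.univ Q3 1).pt (P251.F.F3.seq (Cob.univ Q3 1))).v) hk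
    rw [← Ih_haz] at h1
    change _ ∈ Ih 3 3 (P236B.hz 3 (tv 3 _)) at h1
    rw [← ty_smul, Ih_smul, Ih_smul] at h1
    refine (Ideal.span_le.2 ?_ : _ ≤ RingHom.ker ψ) h1
    rintro _ ⟨i, hi, rfl⟩
    rw [vv_map]
    change ψ (C (vv 3 i (Laz.univ.map _))) = 0
    rw [vv_map, map_C, Ideal.Quotient.factor_mk, (Ideal.Quotient.eq_zero_iff_mem
      (I := Laz.I 3 3)).2 (vv_mem_Ih hi _), map_zero]
  have ad := add_pow_of (dB_iff.1 db) e ((C : Q3 →+* Cob Q3 1).comp k3)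
  have e3 : Cob.d 0 (c ^ q) = Cob.d 0 c ^ q := by
    have h1 : ∀ w : Cob Q3 0, Cob.d 0 w = mp 1 (sk 0) w - mp 1 (sk 1) w := fun w => by
      rw [d_eq, Finset.sum_range_succ, Finset.sum_range_one, pow_zero, one_smul, pow_one, neg_smul,
        one_smul, sub_eq_add_neg]
    have h2 := ad (mp 1 (sk 0) c - mp 1 (sk 1) c) (mp 1 (sk 1) c)
    rw [h1, h1, map_pow, map_pow]
    linear_combination (exp := 1) h2 + congrArg (· ^ q) (sub_add_cancel (mp 1 (sk 0) c)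
      (mp 1 (sk 1) c)).symm
  obtain ⟨a, b, e4⟩ := Ideal.mem_span_pair.1 e
  have e5 := congrArg (fun w => ψ (sg 3 k3 1 (toCx w))) e4
  simp only [map_add, map_mul, toCx_C, ψv 0 two_pos, ψv 1 one_lt_two, mul_zero, add_zero, map_sub,
    map_pow, toCx_X] at e5
  rw [← mapRing_eq_zero_iff, ← ψr, Int.cast_one, one_mul, map_sub, eh, e3, map_sub, map_sub,
    sub_eq_zero.1 e5.symm, ← map_pow, eq_add_of_sub_eq e1.symm, ad, map_pow (rd 1), map_add]
  ring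

end ClP

open ClP in
/-- **The multipliers.** -/
theorem clFacts : ClFacts where
  ex := fun e h hp => by
    obtain ⟨z, hz, dz, ez⟩ := dat3.exists_cocycle k3 (uq_zmod 3)
      (bWt_toCx.2 fun E α c => (congrArg _ (h E α c)).trans e.symm) (dB_iff.2 (prim_iff.1 hp))
    exact ⟨_, z, hz, dz, rfl, ez⟩
  uniq := uniq
  add := by
    rintro u _ _ y y' ⟨z, hz, dz, rfl, e⟩ ⟨z', hz', dz', rfl, e'⟩
    exact ⟨_, _, _, H.mk_add _ _ _ _, by rw [map_add, map_add, e, e']⟩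
  neg := by
    rintro u _ y ⟨z, hz, dz, rfl, e⟩
    exact ⟨_, _, _, H.mk_neg _ _, by rw [map_neg, map_neg, e]⟩
  v1 := by
    rintro u u' h _ y ⟨z, hz, dz, rfl, e⟩
    refine ⟨_, _, _, H.cup_mk (zero_add 1) h (isWt_rd isWt_v1) hz (d_rd (d_mem_of_div three_t1)) dz,
      ?_⟩
    rw [Dat.pi_cp, pi_v1, e, cpB, cm_C, cm_congr 3 (g := fun i => i) fun i _ => zero_add i, cm_id,
      map_mul, toCx_C]
    exact congrArg (· * _) (RingHom.congr_fun kx_uP _)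
  zero := by
    rintro u _ c ⟨z, hz, dz, rfl, e⟩
    exact H.mk_eq_zero.2 (dat3.mem_Bc_succ k3 (uq_zmod 3) (n := 0) dz (e.trans (dB_C c).symm))
  h0 := ⟨_, isWt_rd isWt_t1, d_rd (by rw [d_t1]; exact zero_mem _), rfl,
    pi_t1.trans (toCx_X 0).symm⟩
  h1 := ⟨_, isWt_rd (isWt_t1.pow 3), d_rd (d_mem_of_div three_b), rfl,
    by simp only [map_pow, pi_t1, toCx_X]⟩
  b0 := ⟨_, isWt_rd isWt_b, d_rd (by rw [d_b]; exact zero_mem _), rfl, by
    have h : bcls 3 t1 = cp rfl (t1 ^ 2) (t1 ^ 1) + cp rfl (t1 ^ 1) (t1 ^ 2) := by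
      rw [bcls, show Finset.Ioo 0 3 = {2, 1} by decide, Finset.sum_pair (by decide), cp_rfl, cp_rfl]
      simp
    rw [h, map_add, map_add, pi_cp, pi_cp, pow_one]⟩
  prim := fun j => prim_iff.2 fun R _ _ κ v t s => by
    obtain ⟨r, hr⟩ := exists_add_pow_prime_pow_eq Nat.prime_three (t 0) (s 0) j
    simp only [map_pow, eg_X, cmp_zero, hr, Nat.cast_ofNat, three_eq κ, zero_mul, add_zero]
  prim_div := fun {j y c} e => by
    have h : Prim (C (X 0) ^ j * y) := prim_iff.2 fun R _ _ κ v t s => by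
      simp only [e, map_sub, eg_eta, eg_C, tgt_cmp]
      ring
    rw [Prim, map_mul, map_mul, map_mul, map_pow, map_pow, map_pow, gD_C, map_C, eta_v1,
      ← mul_add] at h
    exact mul_left_cancel₀ (pow_ne_zero _ (C_ne_zero.2 (C_ne_zero.2 (X_ne_zero _)))) h
  eta_v1 := eta_v1
  eta_v2 := by
    rw [eta, kx_X, gT, tgt_one, three_eq (C.comp C), zero_mul, add_zero, RingHom.comp_apply,
      RingHom.comp_apply, vmk_X, vmk_X]
  homG_eta := fun {e c} h E α hne => by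
    classical
    have h1 : BWt 3 e (C c : Cx F3 0) := (bWt_iff 3).2 fun β α' c' => by
      obtain rfl : β = 0 := Subsingleton.elim _ _
      rw [coeff_zero_C] at c'
      rw [wtm, map_zero, add_zero, ← h α' c']
    exact_mod_cast bWt_toCx.1 (toCx_eta c ▸ h1.cm 3 (sk 0)) E α hne
  bock := bock
  start := start

end Vale.Agent.P236N

end
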