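import Vale.Agent.P236N.Dl
import Vale.Agent.P236N.Cl

/-!
# P236N: the multipliers and the sign of the Toda differential

* the classes `h2`, `b1`, `bt n` (`β'_n`) and `etaC` (the lift of `h₃`);
* `Delta.neg` and `Delta.wlog`: one may assume `δ b₁ = h₀ b₀ ^ 3`.
-/

noncomputable section

namespace Vale.Agent.P236N

open MvPolynomial Vale.Agent.P236B Vale.Agent.P236T Finset Vale.Agent.P257.H314
  Vale.Agent.P257.H80

/-! ### homogeneous elements -/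

theorem wE_single' (k n : ℕ) : wE 3 (Finsupp.single k n) = n * (3 ^ (k + 1) - 1) := by
  simp [Finsupp.weight_apply, wv]

theorem homA_monomial {e : ℕ} {α : ℕ →₀ ℕ} (h : wE 3 α = e) (c : F3) : HomA e (monomial α c) :=
  fun β hβ => by
    rw [coeff_monomial] at hβ
    split_ifs at hβ with h1
    · rw [← h1, h]
    · exact absurd rfl hβ

theorem HomA.sub {e : ℕ} {c c' : A} (h : HomA e c) (h' : HomA e c') : HomA e (c - c') :=
  fun α hα => by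
    by_cases h1 : coeff α c = 0
    · exact h' α fun h2 => hα (by rw [coeff_sub, h1, h2, sub_zero])
    · exact h α h1

theorem homA_v2 (n : ℕ) : HomA (8 * n) (X 1 ^ n) := by
  rw [X_pow_eq_monomial]
  exact homA_monomial (by rw [wE_single']; omega) 1

theorem HomG.sub {e : ℕ} {y y' : Gam} (h : HomG e y) (h' : HomG e y') : HomG e (y - y') :=
  fun E α hα => by
    by_cases h1 : coeff α (coeff E y) = 0
    · exact h' E α fun h2 => hα (by rw [coeff_sub, coeff_sub, h1, h2, sub_zero])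
    · exact h E α h1

theorem HomA.homG {e : ℕ} {c : A} (h : HomA e c) : HomG e (C c) := fun E α hα => by
  rw [coeff_C] at hα
  split_ifs at hα with h1
  · rw [← h1, h α hα, wE, map_zero, add_zero]
  · exact absurd rfl hα

theorem HomG.div {e j : ℕ} {y : Gam} (h : HomG (e + 2 * j) (C (X 0) ^ j * y)) : HomG e y :=
  fun E α hα => by
    have h1 := h E (Finsupp.single 0 j + α) (by
      rwa [← map_pow, coeff_C_mul, X_pow_eq_monomial, coeff_monomial_mul, one_mul])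
    have h2 := wE_single' 0 j
    rw [wE, map_add] at h1
    unfold wE at *
    omega

theorem homG_t1 (n : ℕ) : HomG (2 * n) (X 0 ^ n) := fun E α hα => by
  rw [X_pow_eq_monomial, coeff_monomial] at hα
  split_ifs at hα with h1
  · rw [coeff_one] at hα
    split_ifs at hα with h2
    · rw [← h1, ← h2, wE_single', wE, map_zero]
      omega
    · exact absurd rfl hα
  · exact absurd rfl hα

theorem homG_div {e j : ℕ} {y : Gam} {c : A} (hc : HomA (e + 2 * j) c)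
    (h : C (X 0) ^ j * y = eta c - C c) : HomG e y :=
  HomG.div (h ▸ (clFacts.homG_eta hc).sub hc.homG)

/-! ### the action only depends on the multiplier modulo `v₁ ^ m` -/

section

variable {G : Type} [Fintype G] {R : Res 3 G}

theorem ac_add_left (s : ℕ) (y y' : Gam) (w : G → A) :
    ac R s (y + y') w = ac R s y w + ac R s y' w :=
  funext fun g => by simp only [ac, Pi.add_apply, map_add, add_mul, Finset.sum_add_distrib]

theorem ac_C_mul (s : ℕ) (c : A) (y : Gam) (w : G → A) : ac R s (C c * y) w = c • ac R s y w :=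
  funext fun g => by
    simp only [ac, Pi.smul_apply, smul_eq_mul, Finset.mul_sum, mul_assoc, act_C_mul]

theorem ac_congr_left {m : ℕ} {y y' : Gam} (h : C (X 0) ^ m ∣ y - y') (s : ℕ) (w : G → A) :
    Neg m (ac R s y w - ac R s y' w) := by
  obtain ⟨z, hz⟩ := h
  rw [sub_eq_iff_eq_add.1 hz, ac_add_left, add_sub_cancel_right, ← map_pow, ac_C_mul]
  exact Neg.pow le_rfl _

end

/-! ### the multipliers -/

/-- the class of a primitive element -/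
def cls {e : ℕ} (u : ℤ) (hu : u = e) (y : Gam) (h : HomG e y) (hp : Prim y) : HQ 1 u :=
  (clFacts.ex hu h hp).choose

theorem cl_cls {e : ℕ} (u : ℤ) (hu : u = e) (y : Gam) (h : HomG e y) (hp : Prim y) :
    Cl (cls u hu y h hp) y := (clFacts.ex hu h hp).choose_spec

/-- `h₂`, the class of `t₁ ^ 9` -/
def h2 : HQ 1 18 := cls 18 rfl (X 0 ^ 9) (homG_t1 9) (clFacts.prim 2)

theorem cl_h2 : Cl h2 (X 0 ^ 9) := cl_cls _ _ _ _ _

/-- `b₁` -/
def b1 : HQ 2 18 := -bock (t := 2) rfl h2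

theorem b1_eq : b1 = -bock (t := 2) rfl h2 := rfl

theorem bl_b1 : Bl b1 (X 0 ^ 3) := clFacts.bock (j := 1) cl_h2

theorem prim_t1 : Prim (X 0) := by simpa using clFacts.prim 0

theorem prim_t1_three : Prim (X 0 ^ 3) := clFacts.prim 1

theorem homG_X0 : HomG 2 (X 0) := by simpa using homG_t1 1

/-- `(η v₂ - v₂) / v₁` -/
def tau : Gam := X 0 ^ 3 - C (X 0) ^ 2 * X 0

theorem eta_v2_eq : eta (X 1) = C (X 1) + C (X 0) * tau := by
  rw [clFacts.eta_v2, tau]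
  ring

/-- `(η v₂ ^ n - v₂ ^ n) / v₁` -/
def bet (n : ℕ) : Gam :=
  (∑ i ∈ range n, (C (X 1) + C (X 0) * tau) ^ i * C (X 1) ^ (n - 1 - i)) * tau

theorem v1_bet (n : ℕ) : C (X 0) ^ 1 * bet n = eta (X 1 ^ n) - C (X 1 ^ n) := by
  rw [map_pow, map_pow, eta_v2_eq, ← geom_sum₂_mul, bet]
  ring

theorem bet_two : bet 2 = 2 * C (X 1) * tau + C (X 0) * tau ^ 2 := by
  simp only [bet, sum_range_succ, range_zero, sum_empty]
  ring

theorem prim_bet (n : ℕ) : Prim (bet n) := clFacts.prim_div (v1_bet n)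

theorem homG_bet {n e : ℕ} (h : e + 2 = 8 * n) : HomG e (bet n) :=
  homG_div (j := 1) (h ▸ homA_v2 n) (v1_bet n)

/-- `β'_n` -/
def bt (n : ℕ) {e : ℕ} (h : e + 2 = 8 * n) (u : ℤ) (hu : u = e) : HQ 1 u :=
  cls u hu (bet n) (homG_bet h) (prim_bet n)

theorem cl_bt (n : ℕ) {e : ℕ} (h : e + 2 = 8 * n) (u : ℤ) (hu : u = e) :
    Cl (bt n h u hu) (bet n) := cl_cls _ _ _ _ _

/-- `β'_2` -/
def bt2 : HQ 1 14 := bt 2 (e := 14) rfl 14 rfl

theorem cl_bt2 : Cl bt2 (bet 2) := cl_bt _ _ _ _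

/-- `(η x - x) / v₁ ^ 9` for `x = v₂ ^ 9 - v₁ ^ 8 v₂ ^ 7` -/
def etaG : Gam := tau ^ 9 - bet 7

theorem v1_etaG : C (X 0) ^ 9 * etaG =
    eta (X 1 ^ 9 - X 0 ^ 8 * X 1 ^ 7) - C (X 1 ^ 9 - X 0 ^ 8 * X 1 ^ 7) := by
  have h1 := v1_bet 7
  have h2 : eta (X 1 ^ 9) = C (X 1 ^ 9) + C (X 0) ^ 9 * tau ^ 9 := by
    rw [map_pow, map_pow, eta_v2_eq, ← mul_pow]
    exact add_pow_char_pow _ _ 3 2
  rw [map_sub, map_sub, map_mul, map_mul, h2, map_pow eta (X 0), clFacts.eta_v1,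
    map_pow C (X 0), etaG]
  linear_combination -(C (X 0) : Gam) ^ 8 * h1

theorem prim_etaG : Prim etaG := clFacts.prim_div v1_etaG

theorem homG_etaG : HomG 54 etaG := by
  refine homG_div (j := 9) ((homA_v2 9).sub ?_) v1_etaG
  rw [X_pow_eq_monomial, X_pow_eq_monomial, monomial_mul]
  refine homA_monomial ?_ _
  have h1 := wE_single' 0 8
  have h2 := wE_single' 1 7
  rw [wE, map_add]
  unfold wE at *
  omega

theorem etaG_sub : etaG - X 0 ^ 27 ∈ Ideal.span {(C (X 0) : Gam), C (X 1)} := by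
  have h0 : (C (X 0) : Gam) ∈ Ideal.span {(C (X 0) : Gam), C (X 1)} :=
    Ideal.subset_span (by simp)
  have h1 : (C (X 1) : Gam) ∈ Ideal.span {(C (X 0) : Gam), C (X 1)} :=
    Ideal.subset_span (by simp)
  have h2 : tau ^ 9 = X 0 ^ 27 - C (X 0) * (C (X 0) ^ 17 * X 0 ^ 9) := by
    rw [tau]
    refine (sub_pow_char_pow (p := 3) _ _ 2).trans ?_
    ring
  rw [etaG, h2, sub_right_comm, sub_sub_cancel_left]
  refine sub_mem (neg_mem (Ideal.mul_mem_right _ _ h0)) (Ideal.mul_mem_right _ _ ?_)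
  refine Ideal.sum_mem _ fun i _ => ?_
  rcases Nat.eq_zero_or_pos i with rfl | hi
  · exact Ideal.mul_mem_left _ _ (Ideal.pow_mem_of_mem _ h1 _ (by norm_num))
  · exact Ideal.mul_mem_right _ _
      (Ideal.pow_mem_of_mem _ (add_mem h1 (Ideal.mul_mem_right _ _ h0)) _ hi)

/-- the lift of `h₃` -/
def etaC : HQ 1 54 := cls 54 rfl etaG homG_etaG prim_etaG

theorem cl_etaC : Cl etaC etaG := cl_cls _ _ _ _ _

/-! ### products in terms of left multiplications -/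

theorem cup_bp_zero' {s : ℕ} {w : ℤ} (h : s + 2 * 0 = s) (k : w + 6 * (0 : ℕ) = w) (x : HQ s w) :
    H.cup h k x (bp 0) = x := H.cup_one rfl (add_zero _) x

theorem cup_bp_left {a s K n : ℕ} {v w u : ℤ} (h : a + 2 * (K + 1) = s)
    (k : v + 6 * ((K + 1 : ℕ) : ℤ) = w) (h' : a + 2 * K = n) (k' : v + 6 * (K : ℕ) = u)
    (x : HQ a v) : H.cup h k x (bp (K + 1)) =
      H.cup (show 2 + n = s by omega) (show 6 + u = w by push_cast at k; omega) b0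
        (H.cup h' k' x (bp K)) := by
  subst h' k'
  rw [cup_bp_step, cup_comm_b0]

theorem cup_h0_right {s n : ℕ} {w u : ℤ} (h : s + 1 = n) (k : w + 2 = u) (y : HQ s w) :
    H.cup h k y h0 =
      (-1 : ℤ) ^ s • H.cup (show 1 + s = n by omega) (show 2 + w = u by omega) h0 y := by
  rw [H.cup_comm_one _ h _ k, smul_smul, ← mul_pow, neg_one_mul, neg_neg, one_pow, one_smul]

/-- `(h₀ b₀ ^ 3) z = h₀ (b₀ (b₀ (b₀ z)))` -/
theorem cup_toda {s s2 s4 s6 t : ℕ} {w w2 w4 w6 r : ℤ} (h2 : 2 + s = s2) (h4 : 2 + s2 = s4)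
    (h6 : 2 + s4 = s6) (h7 : 1 + s6 = t) (k2 : 6 + w = w2) (k4 : 6 + w2 = w4) (k6 : 6 + w4 = w6)
    (k7 : 2 + w6 = r) (z : HQ s w) :
    H.cup (show 7 + s = t by omega) (show 20 + w = r by omega)
        (H.cup (a := 1) (b := 2 * 3) (n := 7) (u := 20) rfl (by norm_num) h0 (bp 3)) z =
      H.cup h7 k7 h0 (H.cup h6 k6 b0 (H.cup h4 k4 b0 (H.cup h2 k2 b0 z))) := by
  have e : bp 3 = H.cup (a := 2) (b := 4) (n := 2 * 3) (v := 6) (w := 12) rfl (by norm_num) b0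
      (H.cup (a := 2) (b := 2) (v := 6) (w := 6) rfl (by norm_num) b0 b0) := by
    have e1 : bp 1 = b0 := H.one_cup _ _ b0
    have e2 : bp 2 = H.cup (a := 2) (b := 2) (n := 4) (v := 6) (w := 6) (u := 12) rfl
      (by norm_num) b0 b0 := congrArg (fun x => H.cup (a := 2) (b := 2) (n := 4) (v := 6) (w := 6)
        (u := 12) rfl (by norm_num) x b0) e1
    refine Eq.trans ?_ (cup_comm_b0 (s := 4) (w := 12) _ rfl _ (by norm_num) _).symm
    rw [← e2]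
    rfl
  rw [H.cup_assoc _ _ (show 2 * 3 + s = s6 by omega) h7 _ _
      (show 6 * ((3 : ℕ) : ℤ) + w = w6 by push_cast; omega) k7, e,
    H.cup_assoc _ _ (show 4 + s = s4 by omega) h6 _ _ (show 12 + w = w4 by omega) k6,
    H.cup_assoc _ _ h2 h4 _ _ k2 k4]

end Vale.Agent.P236N

namespace Vale.Agent.P236T.Delta

open Vale.Agent.P236N

variable (Δ : Delta)

theorem δ_bt2 {t : ℕ} {u : ℤ} (hs : 1 + 5 = t) (hw : 14 + 2 = u) : Δ.δ hs hw bt2 = 0 :=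
  Δ.δ_low hs hw (by omega) _

theorem δ_bt2_mul {s n s' t : ℕ} {w u w' r : ℤ} (h1' : 1 + s = n) (h2 : n + 5 = t)
    (h3 : s + 5 = s') (k1 : 14 + w = u) (k2 : u + 2 = r) (k4 : w + 2 = w') (z : HQ s w) :
    Δ.δ h2 k2 (H.cup h1' k1 bt2 z) =
      -H.cup (show 1 + s' = t by omega) (show 14 + w' = r by omega) bt2 (Δ.δ h3 k4 z) :=
  Δ.leib_cyc h1' h2 h3 k1 k2 rfl k4 (Δ.δ_bt2 _ _) z

theorem leibB_neg {s n s' t : ℕ} {v w u v' w' r : ℤ} (h1 : 2 + s = n) (h2 : n + 5 = t)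
    (h3 : s + 5 = s') (k1 : v + w = u) (k2 : u + 2 = r) (k3 : v + 2 = v') (k4 : w + 2 = w')
    {x : HQ 1 v} {b : HQ 2 v} (hb : b = -P236T.bock (t := 2) rfl x) (z : HQ s w) :
    Δ.δ h2 k2 (H.cup h1 k1 b z) =
      H.cup (show 7 + s = t by omega) (show v' + w = r by omega) (Δ.δ rfl k3 b) z +
        H.cup (show 2 + s' = t by omega) (show v + w' = r by omega) b (Δ.δ h3 k4 z) := by
  have h := Δ.leibB h1 h2 h3 k1 k2 k3 k4 x z
  rw [hb, map_neg (H.cup h1 k1), AddMonoidHom.neg_apply, map_neg (Δ.δ h2 k2), h, neg_add,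
    map_neg (Δ.δ _ _), map_neg (H.cup _ _), map_neg (H.cup _ _), AddMonoidHom.neg_apply,
    AddMonoidHom.neg_apply]

theorem δ_b1_mul {s n s' t : ℕ} {w u w' r : ℤ} (h1' : 2 + s = n) (h2' : n + 5 = t)
    (h3 : s + 5 = s') (k1 : 18 + w = u) (k2 : u + 2 = r) (k4 : w + 2 = w') (z : HQ s w) :
    Δ.δ h2' k2 (H.cup h1' k1 b1 z) =
      H.cup (show 7 + s = t by omega) (show 20 + w = r by omega)
          (Δ.δ (s := 2) (t := 7) (w := 18) (u := 20) rfl rfl b1) z +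
        H.cup (show 2 + s' = t by omega) (show 18 + w' = r by omega) b1 (Δ.δ h3 k4 z) :=
  Δ.leibB_neg h1' h2' h3 k1 k2 (show (18 : ℤ) + 2 = 20 from rfl) k4 b1_eq z

theorem start_of (h : Δ.δ (t := 6) (u := 56) rfl rfl etaC = 0) :
    Δ.Start 27 (w := 54) (u := 56) rfl := by
  obtain ⟨x, hw, hd, n, e, hx⟩ := clFacts.start cl_etaC etaG_sub
  exact ⟨x, hw, hd, 1, n, by norm_num, hx, e ▸ h⟩

/-- The negative of a differential. -/
def neg : Delta where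
  δ hs hw := -Δ.δ hs hw
  v1_mul hs hw k1 k2 z := by
    rw [AddMonoidHom.neg_apply, AddMonoidHom.neg_apply, Δ.v1_mul hs hw, map_neg]
  leib h1 h2 h3 k1 k2 k3 k4 x z := by
    simp only [AddMonoidHom.neg_apply, map_neg]
    rw [Δ.leib h1 h2 h3 k1 k2 k3 k4, neg_sub']
  bock h1 h2 h3 k z := by
    rw [AddMonoidHom.neg_apply, AddMonoidHom.neg_apply, Δ.bock h1 h2 h3, map_neg]
  toda := by
    obtain ⟨z, hz⟩ := Δ.toda
    exact ⟨-z, by rw [AddMonoidHom.neg_apply, map_neg, neg_neg, hz]⟩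
  dd h1 h2 k1 k2 z := by
    rw [AddMonoidHom.neg_apply, AddMonoidHom.neg_apply, map_neg, neg_neg, Δ.dd]

theorem neg_δ {s t : ℕ} {w u : ℤ} (hs : s + 5 = t) (hw : w + 2 = u) (x : HQ s w) :
    Δ.neg.δ hs hw x = -Δ.δ hs hw x := rfl

variable {Δ}

theorem neg_δ_eq_zero {s t : ℕ} {w u : ℤ} {hs : s + 5 = t} {hw : w + 2 = u} {x : HQ s w} :
    Δ.neg.δ hs hw x = 0 ↔ Δ.δ hs hw x = 0 := neg_eq_zero

theorem Ex.of_neg {s : ℕ} {w : ℤ} (h : Δ.neg.Ex s w) : Δ.Ex s w := fun h1 h2 k1 k2 y hy => by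
  obtain ⟨x, hx⟩ := h h1 h2 k1 k2 y (neg_δ_eq_zero.2 hy)
  exact ⟨-x, by rw [map_neg, hx, neg_δ]⟩

theorem Ex1.of_neg {a s t : ℕ} {v w u : ℤ} {h1 : a + 5 = s} {h2 : s + 5 = t} {k1 : v + 2 = w}
    {k2 : w + 2 = u} {g : HQ s w} (h : Δ.neg.Ex1 h1 h2 k1 k2 g) : Δ.Ex1 h1 h2 k1 k2 g :=
  fun y hy => by
    obtain ⟨c, x, hx⟩ := h y (neg_δ_eq_zero.2 hy)
    exact ⟨c, -x, by rw [map_neg, hx, neg_δ]⟩

theorem KC.of_neg {s a b c e : ℕ} {w u v r : ℤ} {ha : s + 5 = a} {hb : s + 6 = b}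
    {hc : s + 7 = c} {he : s + 11 = e} {hu : w + 2 = u} {hv : w + 6 = v} {hr : w + 8 = r}
    {z : HQ s w} (h : Δ.neg.KC ha hb hc he hu hv hr z) : Δ.KC ha hb hc he hu hv hr z :=
  fun y hy e => h (-y) (neg_δ_eq_zero.2 (by rw [map_neg, hy, neg_zero])) (by
    rw [neg_δ, map_neg, map_neg, AddMonoidHom.neg_apply, AddMonoidHom.neg_apply, e])

theorem Start.of_neg {q : ℕ} {w u : ℤ} {k : w + 2 = u} (h : Δ.neg.Start q k) : Δ.Start q k := by
  obtain ⟨x, hw, hd, c, n, h1, h2, h3⟩ := h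
  exact ⟨x, hw, hd, c, n, h1, h2, neg_δ_eq_zero.1 h3⟩

theorem J2.of_neg (h : Δ.neg.J2) : Δ.J2 :=
  ⟨h.1.of_neg, fun s w h1 h2 h3 => Ex.of_neg (h.2 s w h1 h2 h3)⟩

theorem Col.of_neg {S : ℕ} (h : Δ.neg.Col S) : Δ.Col S := by
  obtain ⟨⟨z1, a1, a2⟩, ⟨g1, a3⟩, ⟨z2, a4, a5⟩, ⟨g2, a6⟩, ⟨z3, a7, a8⟩, a9⟩ := h
  exact ⟨⟨z1, a1.of_neg, a2.of_neg⟩, ⟨g1, a3.of_neg⟩, ⟨z2, a4.of_neg, neg_δ_eq_zero.1 a5⟩,
    ⟨g2, a6.of_neg⟩, ⟨z3, a7.of_neg, neg_δ_eq_zero.1 a8⟩,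
    fun s w h1 h2 h3 h4 => Ex.of_neg (a9 s w h1 h2 h3 h4)⟩

theorem J3.of_neg {S : ℕ} (h : Δ.neg.J3 S) : Δ.J3 S := ⟨h.1.of_neg, Col.of_neg h.2⟩

/-- The Toda differential on `b₁`, up to sign. -/
theorem δ_b1 (Δ : Delta) (hb : ∀ z : HQ 2 18, ∃ c : ℤ, z = c • b1)
    (hne : H.cup (a := 1) (b := 2 * 3) (n := 7) (u := 20) rfl (by norm_num) h0 (bp 3) ≠ 0) :
    Δ.δ (t := 7) (u := 20) rfl rfl b1 =
        H.cup (a := 1) (b := 2 * 3) rfl (by norm_num) h0 (bp 3) ∨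
      Δ.neg.δ (t := 7) (u := 20) rfl rfl b1 =
        H.cup (a := 1) (b := 2 * 3) rfl (by norm_num) h0 (bp 3) := by
  obtain ⟨z, hz⟩ := Δ.toda
  obtain ⟨c, rfl⟩ := hb z
  obtain ⟨q, r, rfl, hr⟩ : ∃ q r : ℤ, c = q * 3 + r ∧ (r = 0 ∨ r = 1 ∨ r = -1) :=
    ⟨(c + 1) / 3, (c + 1) % 3 - 1, by omega, by omega⟩
  rw [add_smul, mul_smul, three_smul, smul_zero, zero_add] at hz
  rcases hr with rfl | rfl | rfl
  · rw [zero_smul, map_zero] at hz
    exact absurd hz.symm hne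
  · exact Or.inl (by rwa [one_smul] at hz)
  · exact Or.inr (by rwa [neg_smul, one_smul, map_neg] at hz)

/-- One may assume that `δ b₁ = h₀ b₀ ^ 3`. -/
theorem wlog {P : Delta → Prop} (hP : ∀ Δ : Delta, P Δ.neg → P Δ)
    (hb : ∀ z : HQ 2 18, ∃ c : ℤ, z = c • b1)
    (hne : H.cup (a := 1) (b := 2 * 3) (n := 7) (u := 20) rfl (by norm_num) h0 (bp 3) ≠ 0)
    (h : ∀ Δ : Delta, Δ.δ (t := 7) (u := 20) rfl rfl b1 =
      H.cup (a := 1) (b := 2 * 3) rfl (by norm_num) h0 (bp 3) → P Δ) (Δ : Delta) : P Δ :=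
  (Δ.δ_b1 hb hne).elim (h Δ) fun h' => hP Δ (h _ h')

end Vale.Agent.P236T.Delta

end
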