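import Vale.Agent.P236N.Pk

/-!
# P236N: the monomial family is a basis modulo `v₁`
-/

noncomputable section

namespace Vale.Agent.P236N

open MvPolynomial Vale.Agent.P236B Vale.Agent.P236T Finset Vale.Agent.P257.H80

set_option linter.unusedSectionVars false

theorem X0_dvd_iff {p : A} : (X 0 : A) ^ 1 ∣ p ↔ ∀ α : ℕ →₀ ℕ, α 0 = 0 → coeff α p = 0 := by
  rw [pow_one, X_dvd_iff_modMonomial_eq_zero, MvPolynomial.ext_iff]
  refine forall_congr' fun α => ?_
  by_cases h : α 0 = 0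
  · rw [coeff_modMonomial_of_not_le _ (by simp [h])]
    simp [h]
  · rw [coeff_modMonomial_of_le _ (by simpa [Nat.one_le_iff_ne_zero] using h)]
    simp [h]

theorem mem_mlc {r : ℕ} (hr : r ≤ 92) {q : ℕ × ℕ × ℕ} :
    q ∈ mlc r ↔ 4 * q.1 + 13 * q.2.1 + 40 * q.2.2 = r := by
  obtain ⟨a, b, c⟩ := q
  simp only [mlc, List.mem_flatMap, List.mem_range, List.mem_filterMap, Option.ite_none_right_eq_some,
    Option.some.injEq, Prod.mk.injEq]
  constructor
  · rintro ⟨c, _, b, _, h, rfl, rfl, rfl⟩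
    omega
  · intro h
    exact ⟨c, by omega, b, by omega, by omega, by omega, rfl, rfl⟩

theorem mlT_getD {r : ℕ} (hr : r ≤ 92) : mlT.getD r [] = mlc r := by
  rw [mlT_eq, List.getD_eq_getElem _ _ (by simpa using Nat.lt_succ_of_le hr)]
  simp

theorem nodup_mlc : ∀ r < 93, (mlc r).Nodup := by decide +kernel

theorem mem_sl {e : ℕ} (he : e ≤ 92) {q : Q4} : ∀ (dl : List ℕ) (i : ℕ), q ∈ sl e dl i ↔
    ∃ j < dl.length, q.1 = i + j ∧ 4 * q.2.1 + 13 * q.2.2.1 + 40 * q.2.2.2 + dl.getD j 0 = e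
  | [], _ => by simp [sl]
  | r :: dl, i => by
    rw [sl, List.mem_append, mem_sl he dl, List.length_cons, Nat.exists_lt_succ_left]
    refine or_congr ?_ (exists_congr fun j => by
      rw [List.getD_cons_succ, Nat.succ_add_eq_add_succ])
    rw [List.getD_cons_zero, Nat.sub_eq, mlT_getD (by omega)]
    cases h : Nat.ble r e
    · have := mt Nat.ble_eq_true_of_le (h ▸ Bool.false_ne_true : ¬Nat.ble r e = true)
      simp only [cond_false, List.not_mem_nil, false_iff]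
      omega
    · have := Nat.le_of_ble_eq_true h
      simp only [cond_true, List.mem_map, mem_mlc (show e - r ≤ 92 by omega)]
      constructor
      · rintro ⟨x, hx, rfl⟩
        exact ⟨rfl, by simp only; omega⟩
      · rintro ⟨h1, h2⟩
        exact ⟨q.2, by omega, Prod.ext h1.symm rfl⟩

theorem nodup_sl {e : ℕ} (he : e ≤ 92) : ∀ (dl : List ℕ) (i : ℕ), (sl e dl i).Nodup
  | [], _ => List.nodup_nil
  | r :: dl, i => by
    rw [sl, List.nodup_append]
    refine ⟨?_, nodup_sl he dl _, fun a ha b hb hab => ?_⟩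
    · cases Nat.ble r e
      · exact List.nodup_nil
      · rw [cond_true, Nat.sub_eq, mlT_getD (by omega)]
        exact (nodup_mlc _ (by omega)).map fun _ _ h => congrArg Prod.snd h
    · obtain ⟨j, -, hj, -⟩ := (mem_sl he dl _).1 hb
      revert ha
      cases Nat.ble r e
      · simp
      · rw [cond_true, List.mem_map]
        rintro ⟨x, -, rfl⟩
        have := congrArg Prod.fst hab
        simp only at this
        omega

theorem mem_sl0 {dl : List ℕ} {e : ℕ} {q : Q4} : q ∈ sl0 dl e ↔ e ≤ 92 ∧ q.1 < dl.length ∧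
    4 * q.2.1 + 13 * q.2.2.1 + 40 * q.2.2.2 + dl.getD q.1 0 = e := by
  rw [sl0]
  cases h : Nat.ble e 92
  · have := mt Nat.ble_eq_true_of_le (h ▸ Bool.false_ne_true : ¬Nat.ble e 92 = true)
    simp [this]
  · have he := Nat.le_of_ble_eq_true h
    rw [cond_true, mem_sl he]
    constructor
    · rintro ⟨j, h1, h2, h3⟩
      rw [zero_add] at h2
      exact ⟨he, h2 ▸ h1, h2 ▸ h3⟩
    · exact fun h => ⟨q.1, h.2.1, (zero_add _).symm, h.2.2⟩

theorem nodup_sl0 (dl : List ℕ) (e : ℕ) : (sl0 dl e).Nodup := by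
  rw [sl0]
  cases h : Nat.ble e 92
  · exact List.nodup_nil
  · exact nodup_sl (Nat.le_of_ble_eq_true h) _ _

theorem getD_mem_sl0 {dl : List ℕ} {e i : ℕ} (hi : i < (sl0 dl e).length) :
    (sl0 dl e).getD i 0 ∈ sl0 dl e := by
  rw [List.getD_eq_getElem _ _ hi]
  exact List.getElem_mem _

namespace Q4

variable (q : Q4)

theorem ex_zero : q.ex 0 = 0 := by simp [ex]

theorem ex_one : q.ex 1 = q.2.1 := by simp [ex]

theorem ex_two : q.ex 2 = q.2.2.1 := by simp [ex]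

theorem ex_three : q.ex 3 = q.2.2.2 := by simp [ex]

theorem wE_ex : wE 3 q.ex = 8 * q.2.1 + 26 * q.2.2.1 + 80 * q.2.2.2 := by
  simp only [ex, wE, map_add, Finsupp.weight_single, wv, smul_eq_mul]
  omega

end Q4

theorem eq_ex {α : ℕ →₀ ℕ} (h0 : α 0 = 0) (h : wE 3 α ≤ 184) (i : ℕ) :
    α = Q4.ex (i, α 1, α 2, α 3) := by
  ext k
  rcases lt_or_ge k 4 with hk | hk
  · interval_cases k
    · rw [h0, Q4.ex_zero]
    · rw [Q4.ex_one]
    · rw [Q4.ex_two]
    · rw [Q4.ex_three]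
  · have h1 : Q4.ex (i, α 1, α 2, α 3) k = 0 := by
      simp [Q4.ex, show k ≠ 1 by omega, show k ≠ 2 by omega, show k ≠ 3 by omega]
    have h2 : 3 ^ 5 ≤ 3 ^ (k + 1) := Nat.pow_le_pow_right (by norm_num) (by omega)
    rw [h1]
    by_contra h3
    have h4 := Finsupp.le_weight_of_ne_zero' (wv 3) h3
    unfold wE wv at *
    omega

variable {G : Type} [Fintype G] [DecidableEq G] {R : Res 3 G} {gen : ℕ → G} {s : ℕ}
  {dl : List ℕ}

theorem coeff_stv (q : Q4) (g : G) (α : ℕ →₀ ℕ) :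
    coeff α (stv gen q g) = if g = gen q.1 ∧ α = q.ex then 1 else 0 := by
  rw [stv]
  by_cases h : g = gen q.1
  · simp [h, coeff_monomial, eq_comm]
  · simp [h]

theorem coeff_lay (e : ℕ) (f : ℕ → F3) (g : G) (α : ℕ →₀ ℕ) :
    coeff α ((std gen dl).lay e f g) = ∑ i ∈ range (sl0 dl e).length,
      if g = gen ((sl0 dl e).getD i 0).1 ∧ α = ((sl0 dl e).getD i 0).ex then f i else 0 := by
  simp only [Fam.lay, std, Finset.sum_apply, Pi.smul_apply, smul_eq_mul, coeff_sum, coeff_C_mul,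
    coeff_stv, mul_ite, mul_one, mul_zero]

namespace Dg

variable (h : Dg R gen s dl) {e : ℕ}
include h

theorem hom : ∀ e, ∀ i < (std gen dl).n e, HomW R s (2 * e) ((std gen dl).vec e i) :=
  fun e i hi g α hα => by
    obtain ⟨-, h1, h2⟩ := mem_sl0.1 (getD_mem_sl0 hi)
    rw [std, coeff_stv] at hα
    split_ifs at hα with h3
    · rw [h3.1, h3.2, h.deg _ h1, Q4.wE_ex]
      omega
    · exact absurd rfl hα

theorem coeff_self (f : ℕ → F3) {j : ℕ} (hj : j < (sl0 dl e).length) :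
    coeff ((sl0 dl e).getD j 0).ex ((std gen dl).lay e f (gen ((sl0 dl e).getD j 0).1)) = f j := by
  rw [coeff_lay, Finset.sum_eq_single_of_mem j (mem_range.2 hj), if_pos ⟨rfl, rfl⟩]
  refine fun i hi hij => if_neg fun h1 => hij ?_
  have hi := mem_range.1 hi
  have h2 := h.inj _ (mem_sl0.1 (getD_mem_sl0 hj)).2.1 _ (mem_sl0.1 (getD_mem_sl0 hi)).2.1 h1.1
  have h3 : (sl0 dl e).getD j 0 = (sl0 dl e).getD i 0 :=
    Prod.ext h2 (Prod.ext (by rw [← Q4.ex_one, h1.2, Q4.ex_one]) (Prod.ext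
      (by rw [← Q4.ex_two, h1.2, Q4.ex_two]) (by rw [← Q4.ex_three, h1.2, Q4.ex_three])))
  rw [List.getD_eq_getElem _ _ hi, List.getD_eq_getElem _ _ hj] at h3
  exact ((nodup_sl0 dl e).getElem_inj_iff.1 h3).symm

theorem span (he : e ≤ 92) (w : G → A) (hw : HomW R s (2 * e) w) :
    ∃ f, Neg 1 (w - (std gen dl).lay e f) := by
  refine ⟨fun i => coeff ((sl0 dl e).getD i 0).ex (w (gen ((sl0 dl e).getD i 0).1)),
    fun g => X0_dvd_iff.2 fun α hα => ?_⟩
  rw [Pi.sub_apply, coeff_sub, sub_eq_zero]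
  by_cases h1 : ∃ j < (sl0 dl e).length,
      g = gen ((sl0 dl e).getD j 0).1 ∧ α = ((sl0 dl e).getD j 0).ex
  · obtain ⟨j, hj, rfl, rfl⟩ := h1
    rw [h.coeff_self _ hj]
  · rw [coeff_lay, Finset.sum_eq_zero fun j hj => if_neg fun h2 => h1 ⟨j, mem_range.1 hj, h2⟩]
    by_contra h2
    have h3 := hw g α h2
    obtain ⟨i, hi, rfl⟩ := h.all g (by omega)
    have h4 := eq_ex hα (by omega) i
    rw [h4, Q4.wE_ex, h.deg i hi] at h3
    obtain ⟨j, hj, h5⟩ := List.getElem_of_mem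
      (mem_sl0.2 ⟨he, hi, by simp only at h3 ⊢; omega⟩ : (i, α 1, α 2, α 3) ∈ sl0 dl e)
    exact h1 ⟨j, hj, by rw [List.getD_eq_getElem _ _ hj, h5]; exact ⟨rfl, h4⟩⟩

theorem indep (f : ℕ → F3) (hf : Neg 1 ((std gen dl).lay e f)) :
    ∀ i < (std gen dl).n e, f i = 0 := fun _ hi =>
  (h.coeff_self f hi).symm.trans (X0_dvd_iff.1 (hf _) _ (Q4.ex_zero _))

omit h in
theorem unit (h : Dg R gen 0 dl) (h1 : sl0 dl 0 = [(0, 0, 0, 0)]) :
    (std gen dl).den 0 (TV.val (1, 0)) R.g0 = 1 ∧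
      ∀ g ≠ R.g0, (std gen dl).den 0 (TV.val (1, 0)) g = 0 := by
  obtain ⟨-, h2, h3⟩ := mem_sl0.1 (h1 ▸ List.mem_singleton_self _ : (0, 0, 0, 0) ∈ sl0 dl 0)
  have h4 : gen 0 = R.g0 := (R.deg_zero _).1 (by
    rw [h.deg 0 h2]
    simp only at h3
    omega)
  have h5 : (std gen dl).den 0 (TV.val (1, 0)) = Pi.single R.g0 1 := by
    simp [Fam.den, Fam.lay, std, h1, stv, Q4.ex, TV.val, h4]
  rw [h5]
  exact ⟨Pi.single_eq_same _ _, fun g hg => Pi.single_eq_of_ne hg _⟩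

end Dg

end Vale.Agent.P236N

end
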