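import Vale.Agent.P236N.Glue
import Vale.Agent.P236K.One

/-!
# P236N: the two low-dimensional facts in terms of `HQ`

* `a2_of`: `P236K.A2` holds if `HQ 2 18` is generated by one element;
* `h0_b0_ne`: `h₀ b₀ ^ 3 ≠ 0`.
-/

namespace Vale.Agent.P236N

open Vale.Agent.P236T Vale.Agent.P251 Vale.Agent.P251.F Vale.Agent.P251.I Vale.Agent.P257.H314
  Vale.Agent.P257

theorem cl_comb {s : ℕ} {w : ℤ} (a b : ℤ) {x y : Cob Laz s} (hx : Cob.IsWt w x)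
    (hy : Cob.IsWt w y) (dx : Cob.d s x ∈ IC 3 1 (s + 1)) (dy : Cob.d s y ∈ IC 3 1 (s + 1))
    (hw : Cob.IsWt w (a • x + b • y)) (hd : Cob.d s (a • x + b • y) ∈ IC 3 1 (s + 1)) :
    cl (a • x + b • y) hw hd = a • cl x hx dx + b • cl y hy dy := by
  rw [cl, cl, cl, H.mk_zsmul, H.mk_zsmul, H.mk_add]
  exact H.mk_congr (by rw [map_add, map_zsmul, map_zsmul])

theorem a2_of (g : HQ 2 18) (h : ∀ z : HQ 2 18, ∃ c : ℤ, z = c • g) : P236K.A2 := by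
  intro x y hx hy dx dy
  obtain ⟨a, b, hab, h0⟩ : ∃ a b : ℤ, ¬ (3 ∣ a ∧ 3 ∣ b) ∧
      a • cl x hx dx + b • cl y hy dy = 0 := by
    obtain ⟨c, hc⟩ := h (cl x hx dx)
    obtain ⟨e, he⟩ := h (cl y hy dy)
    by_cases h3 : 3 ∣ c
    · obtain ⟨q, rfl⟩ := h3
      exact ⟨1, 0, by omega, by
        rw [hc, mul_comm, mul_smul, three_smul, smul_zero, smul_zero, zero_smul, add_zero]⟩
    · exact ⟨e, -c, by omega, by rw [hc, he, smul_smul, smul_smul, ← add_smul, mul_comm,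
        neg_mul, add_neg_cancel, zero_smul]⟩
  have hw : Cob.IsWt 18 (a • x + b • y) := (hx.zsmul a).add (hy.zsmul b)
  have hd : Cob.d 2 (a • x + b • y) ∈ IC 3 1 (2 + 1) := by
    rw [map_add, map_zsmul, map_zsmul]
    exact add_mem (zsmul_mem dx a) (zsmul_mem dy b)
  have h1 : cl (a • x + b • y) hw hd =
      cl (s := 1 + 1) 0 (Cob.isWt_zero _) (by rw [map_zero]; exact zero_mem _) := by
    rw [cl_comb a b hx hy dx dy, h0, eq_comm, cl, H.mk_eq_zero, map_zero]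
    exact zero_mem _
  obtain ⟨u, hu, hu'⟩ := cl_eq_cl_succ.1 h1
  exact ⟨a, b, u, hu, hab, by rwa [sub_zero] at hu'⟩

theorem cup_bp_cl {s : ℕ} {w : ℤ} {x : Cob Laz s} (hx : Cob.IsWt w x)
    (dx : Cob.d s x ∈ IC 3 1 (s + 1)) (K : ℕ) : ∃ hw hd,
    H.cup (n := s + 2 * K) (u := w + 6 * (K : ℕ)) rfl rfl (cl x hx dx) (bp K) =
      cl (H712.cupN x (bcls 3 t1) K) hw hd := by
  induction K with
  | zero =>
    refine ⟨(add_zero w).symm ▸ hx, dx, ?_⟩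
    rw [cl, show bp 0 = H.one Q3 from rfl, H.one, H.cup_mk]
    exact H.mk_congr (cp_one rfl (rd s x))
  | succ K ih =>
    obtain ⟨hw, hd, e⟩ := ih
    rw [cup_bp_step, e, b0, cup_cl, H712.cupN_succ, ← cp_rfl]
    exact ⟨_, _, rfl⟩

theorem h0_b0_ne :
    H.cup (a := 1) (b := 2 * 3) (n := 7) (u := 20) rfl (by norm_num) h0 (bp 3) ≠ 0 := by
  intro h
  obtain ⟨hw, hd, e⟩ := cup_bp_cl isWt_t1 (by rw [d_t1]; exact zero_mem _) 3
  have h1 : cl (s := 6 + 1) (H712.cupN t1 (bcls 3 t1) 3) hw hd =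
      cl (s := 6 + 1) 0 (Cob.isWt_zero _) (by rw [map_zero]; exact zero_mem _) := by
    refine (e.symm.trans h).trans ?_
    rw [eq_comm, cl, H.mk_eq_zero, map_zero]
    exact zero_mem _
  obtain ⟨u, -, hu⟩ := cl_eq_cl_succ.1 h1
  exact P236K.a1 t1 isT1_t1 u (by rwa [sub_zero] at hu)

/-- One may assume that `δ b₁ = h₀ b₀ ^ 3`. -/
theorem wlog_b1 {P : Delta → Prop} (hP : ∀ Δ : Delta, P Δ.neg → P Δ)
    (hb : ∀ z : HQ 2 18, ∃ c : ℤ, z = c • b1)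
    (h : ∀ Δ : Delta, Δ.δ (t := 7) (u := 20) rfl rfl b1 =
      H.cup (a := 1) (b := 2 * 3) rfl (by norm_num) h0 (bp 3) → P Δ) (Δ : Delta) : P Δ :=
  Delta.wlog hP hb h0_b0_ne h Δ

end Vale.Agent.P236N
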