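import Vale.Agent.P236N.Pk
import Vale.Agent.P236N.Glue

/-!
# P236N: the multipliers `β'₂`, the lift of `h₃` and `b₁` modulo `v₁ ^ 3`
-/

noncomputable section

namespace Vale.Agent.P236N

open MvPolynomial Vale.Agent.P236B Vale.Agent.P236T Finset Vale.Agent.P257.H314
  Vale.Agent.P257.H80

/-- `β'₂` modulo `v₁ ^ 3` -/
def lB : List Q4 := [(2, 0, 1, 3), (1, 1, 0, 6), (1, 2, 1, 1)]

/-- the lift of `h₃` modulo `v₁ ^ 3` -/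
def lE : List Q4 := [(1, 0, 0, 27), (2, 0, 6, 3), (1, 2, 6, 1), (1, 2, 4, 9)]

theorem gam_three : (3 : Gam) = 0 := CharP.cast_eq_zero Gam 3

theorem pol_lB : pol lB = 2 * C (X 1) * X 0 ^ 3 + C (X 0) * X 0 ^ 6 +
    C (X 0) ^ 2 * C (X 1) * X 0 := by
  simp only [pol, lB, List.map_cons, List.map_nil, List.sum_cons, List.sum_nil, map_mul, map_pow,
    map_natCast]
  push_cast
  ring

theorem pol_lE : pol lE = X 0 ^ 27 + 2 * C (X 1) ^ 6 * X 0 ^ 3 +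
    C (X 0) ^ 2 * C (X 1) ^ 6 * X 0 + C (X 0) ^ 2 * C (X 1) ^ 4 * X 0 ^ 9 := by
  simp only [pol, lE, List.map_cons, List.map_nil, List.sum_cons, List.sum_nil, map_mul, map_pow,
    map_natCast]
  push_cast
  ring

theorem pol_t (k : ℕ) : pol [(1, 0, 0, k)] = X 0 ^ k := by simp [pol]

theorem exists_beta : ∃ (x : HQ 1 14) (y y' : Gam), Cl x y ∧ y = pol lB + C (X 0 ^ 3) * y' := by
  refine ⟨bt2, bet 2, C (X 0) ^ 2 * X 0 ^ 2 - 2 * X 0 ^ 4, cl_bt2, ?_⟩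
  rw [bet_two, pol_lB, tau, map_pow]
  linear_combination -(C (X 0) ^ 2 * C (X 1) * X 0 : Gam) * gam_three

theorem bet_seven : bet 7 = 7 * C (X 1) ^ 6 * tau + 21 * C (X 1) ^ 5 * C (X 0) * tau ^ 2 +
    35 * C (X 1) ^ 4 * C (X 0) ^ 2 * tau ^ 3 + C (X 0) ^ 3 * (35 * C (X 1) ^ 3 * tau ^ 4 +
      21 * C (X 1) ^ 2 * C (X 0) * tau ^ 5 + 7 * C (X 1) * C (X 0) ^ 2 * tau ^ 6 +
        C (X 0) ^ 3 * tau ^ 7) := by
  simp only [bet, sum_range_succ, range_zero, sum_empty]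
  ring

theorem exists_eta : ∃ (x : HQ 1 54) (y y' : Gam), Cl x y ∧ y = pol lE + C (X 0 ^ 3) * y' ∧
    y - X 0 ^ 27 ∈ Ideal.span {(C (X 0) : Gam), C (X 1)} := by
  have h2 : tau ^ 9 = X 0 ^ 27 - C (X 0) ^ 18 * X 0 ^ 9 := by
    rw [tau]
    refine (sub_pow_char_pow (p := 3) _ _ 2).trans ?_
    ring
  have h3 : tau ^ 3 = X 0 ^ 9 - C (X 0) ^ 6 * X 0 ^ 3 := by
    rw [tau]
    refine (sub_pow_char (p := 3) _ _).trans ?_
    ring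
  refine ⟨etaC, etaG, 35 * C (X 1) ^ 4 * C (X 0) ^ 5 * X 0 ^ 3 - C (X 0) ^ 15 * X 0 ^ 9 -
    (35 * C (X 1) ^ 3 * tau ^ 4 + 21 * C (X 1) ^ 2 * C (X 0) * tau ^ 5 +
      7 * C (X 1) * C (X 0) ^ 2 * tau ^ 6 + C (X 0) ^ 3 * tau ^ 7), cl_etaC, ?_, etaG_sub⟩
  have h1 : tau = X 0 ^ 3 - C (X 0) ^ 2 * X 0 := rfl
  rw [etaG, bet_seven, pol_lE, map_pow, h2, h3]
  generalize tau = u at h1
  linear_combination -(7 * C (X 1) ^ 6 : Gam) * h1 -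
    (3 * C (X 1) ^ 6 * X 0 ^ 3 - 2 * C (X 1) ^ 6 * C (X 0) ^ 2 * X 0 +
      7 * C (X 1) ^ 5 * C (X 0) * u ^ 2 + 12 * C (X 1) ^ 4 * C (X 0) ^ 2 * X 0 ^ 9 : Gam) *
        gam_three

theorem exists_b1 : ∃ x : HQ 2 18, Bl x (X 0 ^ 3) ∧ ∃ y : HQ 1 18, x = bock rfl y :=
  ⟨b1, bl_b1, -h2, (map_neg (bock (t := 2) rfl) h2).symm⟩

theorem homG_t (k : ℕ) : HomG (2 * k) (X 0 ^ k) := homG_t1 k

variable {G : Type} [Fintype G] {R : Res 3 G} {s : ℕ}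

theorem ac_addy (y y' : Gam) (w : G → A) : ac R s (y + y') w = ac R s y w + ac R s y' w :=
  ac_add_left s y y' w

theorem ac_Cmul (c : A) (y : Gam) (w : G → A) : ac R s (C c * y) w = c • ac R s y w :=
  ac_C_mul s c y w

end Vale.Agent.P236N

end
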