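import Vale.Agent.P236N.Mdl
import Vale.Agent.P236N.Eta

/-!
# P236N: the multipliers of the executable definitions
-/

namespace Vale.Agent.P236N

theorem yB_eq : yB = lB := rfl

theorem yE_eq : yE = lE := rfl

end Vale.Agent.P236N
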