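import Vale.Agent.P236N.DatM

/-!
# P236N: the products and the facts which are delivered by the data
-/

noncomputable section

namespace Vale.Agent.P236N

open MvPolynomial Vale.Agent.P236B Vale.Agent.P236T Finset Vale.Agent.P257.H80
  Vale.Agent.P257.H314

set_option linter.unusedSectionVars false

variable {G : Type} [Fintype G] [DecidableEq G] {R : Res 3 G} {gen : ℕ → G} {D : Dat}
  {T : ℕ → ℕ} (K : Cmp R 6 T) (hT : ∀ s ≤ 32, 180 ≤ T s)

/-- `x` is represented by the multiplier `l` modulo `v₁ ^ 3` -/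
def Cq {u : ℤ} (x : HQ 1 u) (l : List Q4) : Prop :=
  ∃ y y' : Gam, Cl x y ∧ y = pol l + C (X 0 ^ 3) * y'

theorem cq_t {u : ℤ} {x : HQ 1 u} {k : ℕ} (h : Cl x (X 0 ^ k)) : Cq x (lT k) :=
  ⟨_, 0, h, by rw [lT, pol_t, mul_zero, add_zero]⟩

section

variable {s t d e : ℕ} {z : HD s d} {a : TV} (hz : K.Rep 3 z ((D.F gen s).den d a.val))
  (ht : t ≤ 32) (he : e ≤ 90)
include hT hz ht he

theorem rep_mul {f : ℕ} {x : HD 1 f} {l : List Q4} (hx : Cq x l) (hs : 1 + s = t)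
    (hd : f + d = e) {b : TV} (hc : Cm.Ok R gen D.dl s ⟨d, f, 3, l, a, b⟩) :
    K.Rep 3 (H.cup hs (by omega) x z : HD t e) ((D.F gen t).den e b.val) := by
  obtain ⟨y, y', h1, rfl⟩ := hx
  obtain rfl : t = s + 1 := by omega
  obtain rfl : e = d + f := by omega
  refine K.congr (K.mul hs _ (by omega) (show 2 * f + 2 * d ≤ T _ by have := hT _ ht; omega)
    rfl rfl h1 hz) (Neg.trans ?_ hc)
  rw [ac_addy, add_sub_cancel_left, ac_Cmul]
  exact Neg.pow le_rfl _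

theorem rep_mulB {q : ℕ} {x : HD 2 (3 * q)} (hx : Bl x (X 0 ^ q)) (hq : Prim (X 0 ^ q))
    (hs : 2 + s = t) (hd : 3 * q + d = e) {b₀ b₁ b₂ b₃ : TV} (w2 : b₂.wf = true) (w3 : b₃.wf = true)
    (c0 : Cm.Ok R gen D.dl s ⟨d, q, 3, lT q, a, b₀⟩)
    (c1 : Cm.Ok R gen D.dl s ⟨d, 2 * q, 3, lT (2 * q), a, b₁⟩)
    (c2 : Cm.Ok R gen D.dl (s + 1) ⟨d + q, 2 * q, 3, lT (2 * q), b₀, b₂⟩)
    (c3 : Cm.Ok R gen D.dl (s + 1) ⟨d + 2 * q, q, 3, lT q, b₁, b₃⟩) :
    K.Rep 3 (H.cup hs (by omega) x z : HD t e) ((D.F gen t).den e (b₂.add b₃).val) := by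
  obtain rfl : t = s + 1 + 1 := by omega
  simp only [Cm.Ok, lT, pol_t] at c0 c1 c2 c3
  rw [show d + q + 2 * q = e by omega] at c2
  rw [show d + 2 * q + q = e by omega] at c3
  refine K.congr (K.mulB hs _ (f := 2 * q) (e := 2 * d) (by omega)
    (by have := hT _ ht; omega) (by omega) rfl (homG_t q) hq hx hz) ?_
  rw [acB, funext (TV.val_add w2 w3), Fam.den_add, ← pow_mul, mul_comm q, add_sub_add_comm]
  exact ((clFacts.ac_congr c0 _ _).trans c2).add ((clFacts.ac_congr c1 _ _).trans c3)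

end

/-- the unit -/
def one0 : HD 0 0 := H.one Q3

theorem cup_one0 {s : ℕ} {u : ℤ} (hs : s + 0 = s) (hw : u + (2 * 0 : ℕ) = u) (x : HQ s u) :
    H.cup hs hw x one0 = x := H.cup_one hs hw x

/-- the multipliers -/
def mm (β : HQ 1 14) (η : HQ 1 54) : ∀ i, HD (mA i) (mF i)
  | 0 => v1
  | 1 => h0
  | 2 => h1
  | 3 => β
  | 4 => b0
  | 5 => b1
  | _ + 6 => η

include hT in
theorem Hyp.rep_mm (h : Hyp R gen D) {β : HQ 1 14} {η : HQ 1 54} (hβ : Cq β lB) (hη : Cq η lE)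
    {s t d e i : ℕ} {z : HD s d} {a : TV} (hz : K.Rep 3 z ((D.F gen s).den d a.val))
    (ht : t ≤ 32) (he : e ≤ 90) (hi : i ≤ 6) (hs : mA i + s = t) (hd : mF i + d = e) {r : Rw}
    (hr : D.rok t e i a r = true) (c0 : ∀ c ∈ r.cl0 d a i, c.Ok R gen D.dl s)
    (c1 : ∀ c ∈ r.cl1 d i, c.Ok R gen D.dl (s + 1)) :
    K.Rep 3 (H.cup hs (by omega) (mm β η i) z : HD t e) ((D.F gen t).den e (r.zz a i).val) := by
  simp only [Dat.rok, Rw.ok, Bool.and_eq_true] at hr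
  obtain ⟨⟨⟨⟨-, w2⟩, w3⟩, -⟩, -⟩ := hr
  obtain rfl | rfl | rfl | rfl | rfl | rfl | rfl :
    i = 0 ∨ i = 1 ∨ i = 2 ∨ i = 3 ∨ i = 4 ∨ i = 5 ∨ i = 6 := by omega
  · obtain rfl : s = t := by simpa [mA] using hs
    obtain rfl : d + 1 = e := by simpa [mF, add_comm] using hd
    have h1 := Fam.den_shl (h.sn_le (s := s) (by omega)) a (d := d) 1
    rw [pow_one] at h1
    exact h1 ▸ K.mono (by omega) (K.v1 _ hz)
  · have h1 : Cq h0 (lT 1) := cq_t ((pow_one (X 0 : Gam)).symm ▸ clFacts.h0)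
    exact rep_mul K hT hz ht he (f := 1) (x := h0) h1 hs hd (c0 _ (List.mem_singleton_self _))
  · have h1 : Cq P236T.h1 (lT 3) := cq_t clFacts.h1
    exact rep_mul K hT hz ht he (f := 3) (x := P236T.h1) h1 hs hd
      (c0 _ (List.mem_singleton_self _))
  · exact rep_mul K hT hz ht he (f := 7) (x := β) hβ hs hd (c0 _ (List.mem_singleton_self _))
  · have h1 : Bl b0 (X 0 ^ 1) := (pow_one (X 0 : Gam)).symm ▸ clFacts.b0
    exact rep_mulB K hT hz ht he (q := 1) (x := b0) h1 (clFacts.prim 0) hs hd w2 w3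
      (c0 _ List.mem_cons_self) (c0 _ (List.mem_cons_of_mem _ List.mem_cons_self))
      (c1 _ List.mem_cons_self) (c1 _ (List.mem_cons_of_mem _ List.mem_cons_self))
  · exact rep_mulB K hT hz ht he (q := 3) (x := b1) bl_b1 prim_t1_three hs hd w2 w3
      (c0 _ List.mem_cons_self) (c0 _ (List.mem_cons_of_mem _ List.mem_cons_self))
      (c1 _ List.mem_cons_self) (c1 _ (List.mem_cons_of_mem _ List.mem_cons_self))
  · exact rep_mul K hT hz ht he (f := 27) (x := η) hη hs hd (c0 _ (List.mem_singleton_self _))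

include K hT in
/-- **The facts for the named classes.** -/
theorem Hyp.facts (h : Hyp R gen D) :
    ∃ M : Mdl, (∀ s d, M.n s d = (D.pos s d).length) ∧ M.Facts D.P := by
  obtain ⟨β, hβ⟩ : ∃ β : HQ 1 14, Cq β lB := exists_beta
  obtain ⟨η, y, y', e1, e2, e3⟩ := exists_eta
  have e4 : Cq η lE := ⟨y, y', e1, e2⟩
  have hr := h.rest
  simp only [Dat.rest, Bool.and_eq_true, decide_eq_true_eq, Nat.beq_eq, TV.eq_iff] at hr
  obtain ⟨⟨⟨⟨⟨⟨⟨⟨-, r1⟩, r2⟩, r3⟩, r4⟩, r5⟩, r6⟩, r7⟩, r8⟩ := hr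
  have cl : ∀ s ≤ 32, ∀ c ∈ D.prC s, c.Ok R gen D.dl s :=
    fun s hs c hc => h.clm s hs c (List.mem_append_right _ hc)
  have h1 : K.Rep 3 one0 ((D.F gen 0).den 0 (TV.val (1, 0))) :=
    K.one 3 ((h.dg 0 (by omega)).unit r1).1 ((h.dg 0 (by omega)).unit r1).2
  have hη : K.Rep 3 η ((D.Fb gen 1).vec 27 2) := by
    have := rep_mul K hT h1 (t := 1) (e := 27) (by omega) (by omega) (f := 27) (x := η) e4 rfl rfl
      (cl 0 (by omega) _ List.mem_cons_self)
    exact cup_one0 _ _ η ▸ this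
  have hx : xc gen D K η 1 27 0 = η := by
    have h2 : 2 ∈ D.pos 1 27 := by simp [r2]
    obtain ⟨-, h3, h4⟩ := Dat.mem_pos.1 h2
    obtain ⟨j, k, -, -, j3, hq⟩ := h.mem_cand.1 h3
    obtain ⟨rfl, rfl⟩ : j = 0 ∧ k = 2 := by omega
    simp only [Dat.isN, Bool.and_eq_true, Nat.beq_eq] at h4
    have h5 := eq_of_heq ((h.pn K hT hη (s := 1) (e := 27) (by omega) (by omega) j3
      ((Dat.tq_eq 1 27 (j := 0) (k := 2) (by omega) (by omega)).1.symm.trans h4.1.1) h4.2).2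
      rfl rfl rfl)
    have h6 : ∀ q (hq : q = 2) (h7 : q / 64 ≤ 27), vp (q / 64) (u' := (2 * 27 : ℕ)) (by omega)
        (Classical.epsilon (Pn gen D K η 1 (27 - q / 64) (q % 64))) = η := by
      rintro _ rfl _
      exact (vp_zero _ _).trans h5
    rw [xc, dif_pos (by simp [r2])]
    exact h6 _ (by simp [r2]) (by simp [r2])
  let M : Mdl := ⟨fun s d => (D.pos s d).length, xc gen D K η, mm β η, rfl, rfl, rfl, rfl,
    ⟨-h2, (map_neg (bock (t := 2) rfl) h2).symm⟩, hx.symm, hx.symm ▸ clFacts.start e1 e3⟩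
  have hn : ∀ s d, M.n s d = (D.pos s d).length := fun _ _ => rfl
  refine ⟨M, hn, fun s d s1 s2 d1 d2 => ?_, ⟨h.span K hT hη hn rfl (by omega) (by omega) r4, r3,
    fun {_} k => h.kl K hT (s := 1) (by omega) 6 (by omega) r5 k, ?_⟩,
    h.span K hT hη hn rfl (by omega) (by omega) r6, fun r hr => ?_⟩
  · obtain ⟨s, rfl⟩ : ∃ a, s = a + 1 := ⟨s - 1, by omega⟩
    have h2 := h.lev _ (by omega) s2
    simp only [Dat.lev, Dat.ckG, Bool.and_eq_true, Bool.or_eq_true, List.all_eq_true,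
      List.mem_range, Nat.blt_eq, Nat.beq_eq, Nat.sub_eq] at h2
    obtain ⟨h3, h4⟩ := h2.1.2.resolve_left (by omega) d (by omega)
    exact ⟨h.span K hT hη hn rfl s2 d1 h3, h.ind K hT hη hn rfl s2 d1, fun {_} k =>
      h.kl' K hT (by omega) d1 (a := 3) (by omega) (h4.resolve_right (by omega)) k⟩
  · have h2 := h.cg_cb K hT hη hn rfl (s := 1) (d := 9) (by omega) (by omega) r7
      (h.rep_mm K hT hβ e4 h1 (t := 2) (e := 9) (i := 5) (by omega) (by omega) (by omega)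
        (by decide) (by decide) r7 (fun c hc => cl 0 (by omega) c (List.mem_cons_of_mem _ hc))
        fun c hc => cl 1 (by omega) c (List.mem_append_right _ hc))
    replace h2 := (Cg.of_eq (cup_one0 (s := 2) (u := (2 * 9 : ℕ)) _ _ b1).symm).trans h2
    rw [Mdl.cb, hn, r3, Finset.sum_range_one, r8,
      show (TV.val (1, 0) 0).val = 1 by decide, one_smul] at h2
    exact h2
  · simp only [Dat.P, Dat.PL, List.mem_flatMap, List.mem_map, List.mem_range] at hr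
    obtain ⟨s, hs, B, hB, k, hk, rfl⟩ := hr
    have h2 := h.lev (s + 1) (by omega) (by omega)
    simp only [Dat.lev, Dat.ckR, Bool.and_eq_true, List.all_eq_true, List.mem_range,
      Nat.ble_eq] at h2
    obtain ⟨⟨⟨⟨b1, b2⟩, b3⟩, b4⟩, b5⟩ := h2.2 B hB
    rintro _ _ rfl rfl
    refine h.cg_cb K hT hη hn rfl (s := mA B.i + s) b2 b3 (b5 k hk) (h.rep_mm K hT hβ e4
      (h.rep_xc K hT hη (hk.trans_le b4)).2 b2 b3 b1 rfl rfl (b5 k hk) (fun c hc => ?_)
      fun c hc => ?_)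
    · have h3 : c ∈ D.c0 (s + 1) := List.mem_flatMap.2 ⟨B, hB, List.mem_flatMap.2
        ⟨k, List.mem_range.2 hk, hc⟩⟩
      refine cl _ (by omega) c ?_
      cases s <;> exact List.mem_append_left _ h3
    · have h3 : mA B.i = 2 := by
        revert hc
        rw [Rw.cl1.eq_def]
        split <;> simp_all [mA]
      exact cl (s + 2) (by omega) c (List.mem_append_right _ (List.mem_flatMap.2
        ⟨B, hB, List.mem_flatMap.2 ⟨k, List.mem_range.2 hk, hc⟩⟩))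

end Vale.Agent.P236N

end
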