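import Vale.Agent.P236N.DatN

/-!
# P236N: the named classes which are defined by the data
-/

noncomputable section

namespace Vale.Agent.P236N

open MvPolynomial Vale.Agent.P236B Vale.Agent.P236T Finset Vale.Agent.P257.H80
  Vale.Agent.P257.H314

set_option linter.unusedSectionVars false

variable {G : Type} [Fintype G] [DecidableEq G] {R : Res 3 G} {gen : ℕ → G} {D : Dat}

theorem Dat.tq_eq (s d : ℕ) {j k : ℕ} (hj : j < 3) (hk : k < 64) :
    D.tq s d (64 * j + k) = D.tt s (d - j) k ∧ D.sq s d (64 * j + k) = D.ss s (d - j) k := by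
  rw [Dat.tq, Dat.sq, wn_eq _ _ hj hk, wn_eq _ _ hj hk, TV.mod_eq,
    show (64 * j + k) % 64 = k by omega]
  exact ⟨rfl, rfl⟩

theorem Dat.mem_pos {s d q : ℕ} : q ∈ D.pos s d ↔
    (1 ≤ s ∧ s ≤ 32 ∧ d ≤ 90) ∧ q ∈ D.cand s d ∧ D.isN s d q = true := by
  rw [Dat.pos, Bool.cond_eq_ite]
  split_ifs with h <;> simp only [Bool.and_eq_true, Nat.ble_eq] at h
  · simp [h.1.1, h.1.2, h.2]
  · simp only [List.not_mem_nil, false_iff]
    tauto

theorem Dat.nodup_pos (s d : ℕ) : (D.pos s d).Nodup := by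
  rw [Dat.pos, Bool.cond_eq_ite]
  split_ifs
  exacts [(List.nodup_range.filter _).filter _, List.nodup_nil]

theorem getD_mem {l : List ℕ} {k : ℕ} (hk : k < l.length) : l.getD k 0 ∈ l := by
  rw [List.getD_eq_getElem _ _ hk]
  exact List.getElem_mem hk

/-- the coordinates of a combination of positions -/
def exl (l : List ℕ) (f : ℕ → F3) (q : ℕ) : F3 :=
  ∑ k ∈ range l.length, f k * if q = l.getD k 0 then 1 else 0

theorem exl_not {l : List ℕ} {q : ℕ} (h : q ∉ l) (f : ℕ → F3) : exl l f q = 0 :=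
  Finset.sum_eq_zero fun k hk => by
    rw [if_neg fun e : q = _ => h (e ▸ getD_mem (mem_range.1 hk)), mul_zero]

theorem exl_at {l : List ℕ} (h : l.Nodup) (f : ℕ → F3) {k : ℕ} (hk : k < l.length) :
    exl l f (l.getD k 0) = f k := by
  rw [exl, Finset.sum_eq_single k (fun j hj e => ?_) fun e => absurd (mem_range.2 hk) e,
    if_pos rfl, mul_one]
  rw [if_neg, mul_zero]
  rw [List.getD_eq_getElem _ _ hk, List.getD_eq_getElem _ _ (mem_range.1 hj), h.getElem_inj_iff]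
  exact e.symm

namespace Hyp

variable (h : Hyp R gen D) {s d e : ℕ}
include h

theorem mem_cand {q : ℕ} : q ∈ D.cand s d ↔
    ∃ j k, j < 3 ∧ j ≤ d ∧ k < D.n s (d - j) ∧ q = 64 * j + k := by
  simp only [Dat.cand, List.mem_filter, List.mem_range, Bool.and_eq_true, Nat.ble_eq, Nat.blt_eq,
    TV.mod_eq, TV.div_eq]
  constructor
  · rintro ⟨h1, h2, h3⟩
    have h4 := wn_eq (D.n s) d (j := q / 64) (k := q % 64) (by omega) (by omega)
    rw [Nat.div_add_mod] at h4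
    exact ⟨q / 64, q % 64, by omega, h2, h4 ▸ h3, by omega⟩
  · rintro ⟨j, k, h1, h2, h3, rfl⟩
    have := h.n_le s (d - j)
    rw [wn_eq _ _ h1 (by omega)]
    omega

theorem ix_cand (i : D.Ix s) (h1 : i.1.1 ≤ d) (h2 : d < i.1.1 + 3) :
    64 * (d - i.1) + i.2 ∈ D.cand s d ∧ D.tq s d (64 * (d - i.1) + i.2) = D.tt s i.1 i.2 ∧
      D.sq s d (64 * (d - i.1) + i.2) = D.ss s i.1 i.2 := by
  have h3 := Dat.tq_eq (D := D) s d (j := d - i.1) (by omega) (i.2.2.trans_le (h.n_le _ _))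
  rw [Nat.sub_sub_self h1] at h3
  exact ⟨h.mem_cand.2 ⟨_, _, by omega, by omega, by rw [Nat.sub_sub_self h1]; exact i.2.2, rfl⟩, h3⟩

theorem of_isS (hs : s ≤ 32) (i : D.Ix s) (h1 : i.1.1 ≤ d) (h2 : d < i.1.1 + 3)
    (h3 : D.isS s d (64 * (d - i.1) + i.2) = true) :
    D.tt s i.1 i.2 ≠ 0 ∧ ∃ j, h.nf.tau i = some j ∧ d < h.nf.wt j + 6 := by
  simp only [Dat.isS, (h.ix_cand i h1 h2).2.1, Bool.and_eq_true, Bool.not_eq_true', Nat.blt_eq,
    TV.div_eq, Nat.add_eq] at h3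
  have h4 := Nat.ne_of_beq_eq_false h3.1
  obtain ⟨j, hj⟩ := h.ex_right hs i h4
  refine ⟨h4, j, h.tau_iff.2 hj, ?_⟩
  have h5 := h3.2
  have := hj.1
  have := i.2.2.trans_le (h.n_le _ _)
  have := j.2.2.trans_le (h.n_le _ _)
  rw [hj.2.1, ca_eq, cd_eq] at h5
  show d < j.1.1 + 6
  omega

theorem isD_iff (hs : s ≤ 32) (j : D.Ix (s + 1)) (h1 : j.1.1 ≤ d) (h2 : d < j.1.1 + 3) (x : ℕ) :
    D.isD (s + 1) d x (64 * (d - j.1) + j.2) = true ↔ ¬h.nf.Alive (d + x) j := by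
  simp only [Dat.isD, (h.ix_cand j h1 h2).2.2, Bool.and_eq_true, Bool.not_eq_true', Nat.ble_eq,
    TV.div_eq, Nat.add_eq, NF.Alive, h.tau_iff, not_forall, not_lt]
  have := j.2.2.trans_le (h.n_le _ _)
  constructor
  · rintro ⟨h3, h4⟩
    obtain ⟨i, hi⟩ := h.ex_left hs j (Nat.ne_of_beq_eq_false h3)
    refine ⟨i, hi, ?_⟩
    have := hi.1
    have := i.2.2.trans_le (h.n_le _ _)
    rw [hi.2.2, ca_eq, cd_eq] at h4
    omega
  · rintro ⟨i, hi, h3⟩
    have := hi.1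
    have := i.2.2.trans_le (h.n_le _ _)
    rw [hi.2.2, ca_eq, cd_eq]
    exact ⟨rfl, by omega⟩

variable {T : ℕ → ℕ} (K : Cmp R 6 T) (hT : ∀ s ≤ 32, 180 ≤ T s)
include K hT

theorem kl (hs : s + 1 ≤ 32) (e : ℕ) (he : e ≤ 90) (hk : D.ktb (s + 1) e = true) :
    Kl (s + 1) (2 * e : ℕ) := by
  induction e using Nat.strong_induction_on with
  | _ e ih =>
  have h1 := h.lev (s + 1) (by omega) hs
  simp only [Dat.lev, Dat.ckK, Bool.and_eq_true, List.all_eq_true, List.mem_range, Bool.or_eq_true,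
    Bool.not_eq_true', Nat.ble_eq, Nat.blt_eq, Nat.sub_eq] at h1
  obtain ⟨⟨h2, h3⟩, h4⟩ := (h1.1.1.2 e (by omega)).resolve_left (by simp [hk])
  have := hT _ hs
  refine fun {_} k => NF.kl_step K clFacts (h.dif (by omega)) (h.dif hs) rfl (by omega) (by omega)
    (fun e _ _ => h.sp (by omega) (by omega)) (fun e _ _ => h.li (by omega) (by omega))
    (fun i i1 i2 => (h4 _ (h.ix_cand i i1 i2).1).imp (fun h5 => (h.of_isS hs i i1 i2 h5).2)
      (h.isD_iff (by omega) i i1 i2 3).1) ?_ k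
  rcases lt_or_ge e 3 with h5 | h5
  · exact kl_of_line (by omega)
  · rw [show ((2 * e : ℕ) : ℤ) - 6 = (2 * (e - 3) : ℕ) by omega]
    exact ih _ (by omega) (by omega) (h3.resolve_left (by omega))

theorem kl' (hs : s + 1 ≤ 33) (he : e ≤ 90) {a : ℕ} {u : ℤ} (hu : u + 2 * a = 2 * e)
    (hk : e < a ∨ D.ktb (s + 1) (e - a) = true) : Kl (s + 1) u := by
  rcases lt_or_ge e a with h5 | h5
  · exact kl_of_line (by omega)
  replace hk := hk.resolve_left (by omega)
  obtain rfl : u = (2 * (e - a) : ℕ) := by omega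
  rcases hs.eq_or_lt with h1 | h1
  · have h2 := h.rest
    simp only [Dat.rest, Bool.and_eq_true, List.all_eq_true, List.mem_range, Bool.or_eq_true,
      Bool.not_eq_true', Nat.blt_eq, Nat.sub_eq] at h2
    rw [h1] at hk ⊢
    rcases lt_or_ge (e - a) 3 with h3 | h3
    · exact fun {_} k => kl_of_line (by omega) k
    · exact fun {_} k => kl_up (h.kl K hT (s := 30) (by omega) (e - a - 3) (by omega)
        ((h2.1.1.1.1.1.1.1.1.2 _ (by omega)).resolve_left (by simp [hk, h3]))) (by omega)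
        (by omega) 1 rfl (by omega) k
  · exact fun {_} k => h.kl K hT (by omega) _ (by omega) hk k

omit h in
theorem cg (hs : s ≤ 32) (hd : d ≤ 90) {y y' : HD s d} {w : G → A} (h1 : K.Rep 3 y w)
    (h2 : K.Rep 3 y' w) : Cg y y' :=
  K.inj _ (by omega) (show 2 * d ≤ T s by have := hT s hs; omega) rfl
    (by simpa using K.sub h1 h2)

end Hyp

variable {T : ℕ → ℕ} (K : Cmp R 6 T) (D gen) (η : HQ 1 54)

/-- the property of the class of a vector of the normal form -/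
def Pn (s e k : ℕ) (x : HD s e) : Prop :=
  K.Rep 3 x ((D.Fb gen s).vec e k) ∧ (s = 1 → e = 27 → k = 2 → HEq x η)

/-- the named classes -/
def xc (s d k : ℕ) : HD s d :=
  if h : (D.pos s d).getD k 0 / 64 ≤ d then vp ((D.pos s d).getD k 0 / 64) (by omega)
    (Classical.epsilon (Pn gen D K η s (d - (D.pos s d).getD k 0 / 64) ((D.pos s d).getD k 0 % 64)))
  else 0

variable {D gen η}

namespace Hyp

variable (h : Hyp R gen D) {s d e : ℕ} (hT : ∀ s ≤ 32, 180 ≤ T s)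
  (hη : K.Rep 3 η ((D.Fb gen 1).vec 27 2))
include h hT hη

theorem pn (hs : s ≤ 32) (he : e ≤ 90) {k : ℕ} (hk : k < D.n s e) (h1 : D.tt s e k = 0)
    (h2 : D.av s e k = true) : Pn gen D K η s e k (Classical.epsilon (Pn gen D K η s e k)) := by
  refine Classical.epsilon_spec (p := Pn gen D K η s e k) ?_
  by_cases h3 : s = 1 ∧ e = 27 ∧ k = 2
  · obtain ⟨rfl, rfl, rfl⟩ := h3
    exact ⟨η, hη, fun _ _ _ => HEq.rfl⟩
  simp only [Dat.av, Bool.or_eq_true, Bool.and_eq_true, Nat.beq_eq, Nat.blt_eq, Nat.sub_eq,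
    and_assoc] at h2
  obtain ⟨x, hx⟩ := NF.exists_class K (h.dif hs) (i := ⟨⟨e, by omega⟩, k, hk⟩) (h.tau_none h1)
    rfl (show 2 * e ≤ T s by have := hT s hs; omega)
    (h.kl' K hT (by omega) he (a := 6) (by simp only; omega) (h2.resolve_right h3))
  exact ⟨x, hx, fun a b c => absurd ⟨a, b, c⟩ h3⟩

theorem rep_xc {k : ℕ} (hk : k < (D.pos s d).length) :
    K.Rep 3 (xc gen D K η s d k) ((D.Fb gen s).den d
      fun q => if q = (D.pos s d).getD k 0 then 1 else 0) ∧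
    K.Rep 3 (xc gen D K η s d k) ((D.F gen s).den d (D.src s d k).val) := by
  obtain ⟨⟨-, h1, h2⟩, h3, h4⟩ := Dat.mem_pos.1 (getD_mem hk)
  obtain ⟨j, i, j1, j2, j3, hq⟩ := h.mem_cand.1 h3
  have j4 := j3.trans_le (h.n_le _ _)
  have e1 : (D.pos s d).getD k 0 / 64 = j := by omega
  have e2 : (D.pos s d).getD k 0 % 64 = i := by omega
  simp only [Dat.isN, Bool.and_eq_true, Nat.beq_eq, TV.div_eq, TV.mod_eq, e1, e2, Nat.sub_eq] at h4
  rw [hq, (Dat.tq_eq s d j1 j4).1] at h4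
  have h5 : K.Rep 3 (xc gen D K η s d k) ((X 0 ^ j : A) • (D.Fb gen s).vec (d - j) i) := by
    subst e1 e2
    rw [xc, dif_pos j2]
    exact K.mono (by omega) (K.vp (h.pn K hT hη h1 (by omega) j3 h4.1.1 h4.2).1 _ _)
  have h6 := Fam.den_unit (F := D.Fb gen s) (h.n_le s) j3 j
  have h7 := Fam.den_shl (h.sn_le (s := s) (by omega)) (D.bv s (d - j) i) (d := d - j) j
  rw [Nat.sub_add_cancel j2] at h6 h7
  refine ⟨by rwa [hq, h6], ?_⟩
  simp only [Dat.src, TV.div_eq, TV.mod_eq, e1, e2, Nat.sub_eq, Nat.mul_eq]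
  rwa [h7]

variable {M : Mdl} (hn : ∀ s d, M.n s d = (D.pos s d).length) (hx : M.x = xc gen D K η)
include hn hx

theorem rep_cb (hd : d ≤ 90) (f : ℕ → F3) :
    K.Rep 3 (M.cb s d f) (h.nf.comb d (cf D s d (exl (D.pos s d) f))) := by
  rw [h.comb_cf d hd, show exl (D.pos s d) f = fun q => exl (D.pos s d) f q from rfl]
  simp only [exl]
  rw [Fam.den_sum, Mdl.cb, hn, hx]
  refine K.sum fun k hk => ?_
  rw [Fam.den_mul]
  exact K.cmul (h.rep_xc K hT hη (mem_range.1 hk)).1 _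

theorem span (hs : s + 1 ≤ 32) (hd : d ≤ 90) (hc : D.cov (s + 1) d = true) :
    M.Span (s + 1) d := fun y => by
  simp only [Dat.cov, List.all_eq_true, Bool.or_eq_true] at hc
  obtain ⟨c, h1, h2⟩ := NF.exists_rep K clFacts (h.dif hs) rfl
    (show 2 * d ≤ T _ by have := hT _ hs; omega) (fun e _ _ => h.sp (by omega) (by omega))
    (fun e _ _ => h.li (by omega) (by omega)) y
  let g : ℕ → F3 := fun q => if hq : q % 64 < D.n (s + 1) (d - q / 64) then
    c ⟨⟨d - q / 64, by omega⟩, _, hq⟩ else 0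
  refine ⟨fun k => g ((D.pos (s + 1) d).getD k 0), cg K hT hs hd (NF.rep_congr K clFacts
    (h.dif (by omega)) rfl (by omega) (K.mono (by omega) h1) fun j j1 j2 j3 => ?_)
    (h.rep_cb K hT hη hn hx hd _)⟩
  have h3 := h.ix_cand j j1 j2
  by_cases h4 : 64 * (d - j.1) + j.2 ∈ D.pos (s + 1) d
  · obtain ⟨k, hk, e⟩ := List.getElem_of_mem h4
    rw [← List.getD_eq_getElem _ 0 hk] at e
    have h5 := j.2.2.trans_le (h.n_le _ _)
    have h6 : j.1.1 ≤ d := j1
    have e1 : d - (64 * (d - j.1.1) + j.2.1) / 64 = j.1.1 := by omega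
    have e2 : (64 * (d - j.1.1) + j.2.1) % 64 = j.2.1 := by omega
    rw [cf, ← e, exl_at (Dat.nodup_pos _ _) _ hk, e]
    simp only [g]
    rw [dif_pos (by rw [e1, e2]; exact j.2.2)]
    exact congrArg c (Dat.Ix.ext e1.symm e2.symm)
  · rw [cf, exl_not h4]
    rcases hc _ h3.1 with (h5 | h5) | h5
    · obtain ⟨-, k, k1, k2⟩ := h.of_isS hs j j1 j2 h5
      exact h2 j k k1 j1 k2
    · exact absurd j3 ((h.isD_iff (by omega) j j1 j2 0).1 h5)
    · exact absurd (Dat.mem_pos.2 ⟨by omega, h3.1, h5⟩) h4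

theorem ind (hs : s + 1 ≤ 32) (hd : d ≤ 90) : M.Ind (s + 1) d := by
  rintro f ⟨y, hy⟩ k hk
  rw [hn] at hk
  have h1 : K.Rep 3 (M.cb (s + 1) d f) 0 := by
    rw [sub_zero] at hy
    rw [hy]
    rcases lt_or_ge d 3 with h1 | h1
    · rw [eq_zero_of_line (by omega) y, map_zero]
      exact K.zero _ _ _
    · obtain ⟨w, -, hw⟩ := K.ex (e := 2 * d - 6) (by omega) y
      exact K.congr (K.vp (hw 0) 3 _) (by simpa using Neg.pow le_rfl w)
  obtain ⟨-, h3, h4⟩ := Dat.mem_pos.1 (getD_mem hk)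
  obtain ⟨j, i, j1, j2, j3, hq⟩ := h.mem_cand.1 h3
  have h5 : d - (d - j) = j := by omega
  have h6 := NF.of_rep_zero K clFacts (h.dif (s := s) (by omega)) rfl (m := 3) (by omega)
    (show 2 * d ≤ T _ by have := hT _ hs; omega) (fun e _ _ => h.sp (by omega) (by omega))
    (fun e _ _ => h.li (by omega) (by omega))
    (by simpa using K.sub (h.rep_cb K hT hη hn hx hd f) h1) ⟨⟨d - j, by omega⟩, i, j3⟩
    (Nat.sub_le _ _) (by simp only; omega) (by
      by_contra h6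
      have h7 := (h.isD_iff (by omega) ⟨⟨d - j, by omega⟩, i, j3⟩ (Nat.sub_le _ _)
        (by simp only; omega) 0).2 h6
      simp only [h5, ← hq] at h7
      rw [Dat.isN, h7] at h4
      simp at h4)
  simp only [cf, h5, ← hq] at h6
  rwa [exl_at (Dat.nodup_pos _ _) _ hk] at h6

theorem cg_cb (hs : s + 1 ≤ 32) (hd : d ≤ 90) {i : ℕ} {x : TV} {r : Rw}
    (hr : D.rok (s + 1) d i x r = true) {y : HD (s + 1) d}
    (hy : K.Rep 3 y ((D.F gen (s + 1)).den d (r.zz x i).val)) : Cg y (M.cb (s + 1) d r.p.val) := by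
  simp only [Dat.rok, Rw.ok, Bool.and_eq_true, TV.eq_iff] at hr
  obtain ⟨⟨⟨⟨r1, -⟩, -⟩, r2⟩, r3⟩ := hr
  have h0 := h.sn_le (s := s + 1) (by omega)
  have h1 := K.congr hy ((Fam.of_den h0 (fun e => (h.wf_n (s + 1) e).1) 3 d r.c.1 r.c.2).trans
    (Fam.den_trunc h0 3 d fun k hk => by
      have := congrArg (·.val k) r2
      simpa only [TV.val_low, if_pos hk] using this)).symm
  rw [← h.comb_cf d hd] at h1
  refine cg K hT hs hd (NF.rep_congr K clFacts (h.dif (by omega)) rfl (by omega) h1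
    fun j j1 j2 j3 => ?_) (h.rep_cb K hT hη hn hx hd _)
  obtain ⟨h2, h3⟩ := TV.mv_spec ((D.pos (s + 1) d).map fun q => (Nat.pow 2 q, 0)) r.p.1 r.p.2
    (by simp only [List.mem_map]; rintro _ ⟨q, -, rfl⟩; exact TV.wf_unit _)
  have h4 := congrArg (·.val (64 * (d - j.1) + j.2)) r3
  have h5 : (D.am (s + 1) d).testBit (64 * (d - j.1) + j.2) = true :=
    (testBit_mkm _ _).2 (List.mem_filter.2 ⟨(h.ix_cand j j1 j2).1, by
      simpa using mt (h.isD_iff (by omega) j j1 j2 0).1 (not_not.2 j3)⟩)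
  simp only [TV.val_msk, h5, if_true, TV.val_add r1 (TV.wf_neg h2), TV.val_neg, h3, TV.val_zero,
    add_neg_eq_zero, List.length_map] at h4
  refine h4.trans (Finset.sum_congr rfl fun k hk => ?_)
  rw [List.getD_eq_getElem _ _ (by simpa using hk), List.getElem_map, TV.val_unit,
    List.getD_eq_getElem _ _ (mem_range.1 hk)]

end Hyp

end Vale.Agent.P236N

end
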