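import Vale.Agent.P236N.Dat
import Vale.Agent.P236N.Std

/-!
# P236N: the normal form which is defined by the data
-/

noncomputable section

namespace Vale.Agent.P236N

open MvPolynomial Vale.Agent.P236B Vale.Agent.P236T Finset Vale.Agent.P257.H80

set_option linter.unusedSectionVars false

theorem cd_eq (a k : ℕ) : cd a k = 64 * a + k + 1 := rfl

theorem ca_eq (c : ℕ) : ca c = (c - 1) / 64 := rfl

theorem ck_eq (c : ℕ) : ck c = (c - 1) % 64 := rfl

theorem tri_spec : ∀ (l : List TV) (k : ℕ), tri l k = true → (∀ r ∈ l, TV.wf r = true) →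
    ∀ i < l.length, (l.getD i (0, 0)).val (k + i) ≠ 0 ∧
      ∀ j, k + i < j → j < 64 → (l.getD i (0, 0)).val j = 0
  | [], _, _, _, _, hi => absurd hi (by simp)
  | r :: l, k, h, hw, i + 1, hi => by
    rw [tri, Bool.and_eq_true] at h
    have := tri_spec l _ h.2 (fun r hr => hw r (by simp [hr])) i (by simpa using hi)
    rwa [show k.succ + i = k + (i + 1) by omega] at this
  | r :: l, k, h, hw, 0, _ => by
    rw [tri, Bool.and_eq_true, Nat.beq_eq] at h
    have h1 : ∀ j, (decide (k + j < 64) && (r.1.testBit (k + j) || r.2.testBit (k + j))) =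
        decide (j = 0) := fun j => by
      have := congrArg (·.testBit j) h.1
      simp only [TV.mod_eq, Nat.pow_eq, Nat.shiftRight_eq', Nat.testBit_shiftRight, Nat.lor_eq,
        Nat.testBit_mod_two_pow, Nat.testBit_or] at this
      exact this.trans (by cases j <;> simp [Nat.testBit_succ])
    have h2 := TV.wf_iff.1 (hw r (by simp)) k
    refine ⟨?_, fun j h3 h4 => ?_⟩
    · have h3 := h1 0
      simp only [List.getD_cons_zero, TV.val, add_zero] at *
      revert h2 h3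
      cases r.1.testBit k <;> cases r.2.testBit k <;> simp
    · have h5 := h1 (j - k)
      rw [show k + (j - k) = j by omega, decide_eq_true h4, decide_eq_false (by omega)] at h5
      simp only [Bool.true_and, Bool.or_eq_false_iff] at h5
      simp [TV.val, h5.1, h5.2]

theorem blt_true {a b : ℕ} (h : a < b) : Nat.blt a b = true := by simpa using h

theorem blt_false {a b : ℕ} (h : b ≤ a) : Nat.blt a b = false :=
  Bool.eq_false_iff.2 (by simpa using h)

theorem ble_false {a b : ℕ} (h : b < a) : Nat.ble a b = false :=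
  Bool.eq_false_iff.2 (by simpa using h)

theorem wn_eq {α : Type} (L : ℕ → α) (d : ℕ) {j k : ℕ} (hj : j < 3) (hk : k < 64) :
    wn L d (64 * j + k) = L (d - j) := by
  obtain rfl | rfl | rfl : j = 0 ∨ j = 1 ∨ j = 2 := by omega
  · rw [wn, blt_true (by omega)]
    rfl
  · rw [wn, blt_false (by omega), blt_true (by omega)]
    rfl
  · rw [wn, blt_false (by omega), blt_false (by omega)]
    rfl

theorem testBit_mkm (q : ℕ) : ∀ l : List ℕ, (mkm l).testBit q = true ↔ q ∈ l
  | [] => by simp [mkm]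
  | a :: l => by
    rw [mkm, Nat.lor_eq, Nat.pow_eq, Nat.testBit_or, Bool.or_eq_true, testBit_mkm q l,
      Nat.testBit_two_pow, decide_eq_true_eq, List.mem_cons, eq_comm]

variable {G : Type} [Fintype G] [DecidableEq G] {R : Res 3 G} {gen : ℕ → G} {D : Dat}

theorem NF.comb_eq {N : NF R} {s d : ℕ} {c c' : N.I s → F3} (h : ∀ i, N.wt i ≤ d → c i = c' i) :
    N.comb d c = N.comb d c' :=
  Finset.sum_congr rfl fun i _ => by
    split_ifs with h1
    exacts [by rw [h i h1], rfl]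

theorem Fam.den_unit {F : Fam G} (hn : ∀ e, F.n e ≤ 64) {e k : ℕ} (hk : k < F.n e) (j : ℕ) :
    F.den (e + j) (fun q => if q = 64 * j + k then 1 else 0) = (X 0 ^ j : A) • F.vec e k := by
  have h1 : F.den e (TV.val (Nat.pow 2 k, 0)) = F.vec e k := by
    have h2 : F.lay e (TV.val (Nat.pow 2 k, 0)) = F.vec e k := by
      rw [Fam.lay, Finset.sum_eq_single k (fun i _ hi => by rw [TV.val_unit]; simp [hi])
        (fun h => absurd (mem_range.2 hk) h), TV.val_unit]
      simp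
    cases e with
    | zero => exact h2
    | succ e =>
      rw [Fam.den, h2, show (fun q => TV.val (Nat.pow 2 k, 0) (q + 64)) = fun _ => 0 from
        funext fun q => by rw [TV.val_unit, if_neg (by have := hn (e + 1); omega)], Fam.den_zero,
        smul_zero, add_zero]
  rw [← h1, ← Fam.den_shl hn]
  refine congrArg _ (funext fun q => ?_)
  rw [TV.val_shl, TV.val_unit]
  split_ifs <;> first | rfl | omega

/-- the results of the checks -/
structure Hyp (R : Res 3 G) (gen : ℕ → G) (D : Dat) : Prop where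
  dg : ∀ s ≤ 33, Dg R gen s (D.dl s)
  lev : ∀ s, 1 ≤ s → s ≤ 32 → D.lev s = true
  rest : D.rest = true
  clm : ∀ s ≤ 32, ∀ c ∈ D.allC s, c.Ok R gen D.dl s

/-- the indices -/
abbrev Dat.Ix (D : Dat) (s : ℕ) : Type := Σ e : Fin 91, Fin (D.n s e)

/-- the matching -/
def Dat.Lk {s : ℕ} (i : D.Ix s) (j : D.Ix (s + 1)) : Prop :=
  j.1.1 ≤ i.1.1 ∧ D.tt s i.1 i.2 = cd (i.1 - j.1) j.2 ∧ D.ss (s + 1) j.1 j.2 = cd (i.1 - j.1) i.2

/-- the matching as a function -/
@[irreducible] def Dat.tau {s : ℕ} (i : D.Ix s) : Option (D.Ix (s + 1)) :=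
  @dite _ (∃ j, Dat.Lk i j) (Classical.dec _) (fun h => some h.choose) fun _ => none

theorem Dat.lk_of_tau {s : ℕ} {i : D.Ix s} {j : D.Ix (s + 1)} (e : Dat.tau i = some j) :
    Dat.Lk i j := by
  rw [Dat.tau] at e
  split_ifs at e with h1
  exact Option.some.inj e ▸ h1.choose_spec

theorem Dat.Ix.ext {s : ℕ} {i j : D.Ix s} (h1 : i.1.1 = j.1.1) (h2 : i.2.1 = j.2.1) : i = j := by
  obtain ⟨⟨e, he⟩, k, hk⟩ := i
  obtain ⟨⟨e', he'⟩, k', hk'⟩ := j
  obtain rfl : e = e' := h1
  obtain rfl : k = k' := h2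
  rfl

/-- the monomial basis -/
abbrev Dat.F (D : Dat) (gen : ℕ → G) (s : ℕ) : Fam G := std gen (D.dl s)

/-- the basis of the normal form -/
abbrev Dat.Fb (D : Dat) (gen : ℕ → G) (s : ℕ) : Fam G := (D.F gen s).of (D.b s)

namespace Hyp

variable (h : Hyp R gen D) {s d e : ℕ}
include h

theorem cks (hs : s ≤ 32) : D.shape s = true ∧ D.ck1 s = true ∧ D.ck2 s = true := by
  rcases Nat.eq_zero_or_pos s with rfl | h0
  · have := h.rest
    simp only [Dat.rest, Bool.and_eq_true] at this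
    tauto
  · have := h.lev s h0 hs
    simp only [Dat.lev, Bool.and_eq_true] at this
    tauto

theorem shape (hs : s ≤ 33) : D.shape s = true := by
  rcases hs.eq_or_lt with rfl | h0
  · have := h.rest
    simp only [Dat.rest, Bool.and_eq_true] at this
    tauto
  · exact (h.cks (by omega)).1

theorem wf_n (s e : ℕ) : (∀ r ∈ D.b s e, TV.wf r = true) ∧ D.n s e ≤ 64 := by
  rw [Dat.n, Dat.b]
  cases hs : Nat.ble s 33
  · simp
  have := h.shape (Nat.le_of_ble_eq_true hs)
  simp only [Dat.shape, Bool.and_eq_true, List.all_eq_true, Nat.ble_eq] at this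
  rw [cond_true, List.getD_eq_getElem?_getD]
  cases he : (D.B s)[e]? with
  | none => simp
  | some l => exact this.1.1 l (List.mem_of_getElem? he)

theorem n_le (s e : ℕ) : D.n s e ≤ 64 := (h.wf_n s e).2

theorem sn_le (hs : s ≤ 33) (e : ℕ) : (D.F gen s).n e ≤ 64 := by
  have := h.shape hs
  simp only [Dat.shape, Bool.and_eq_true, List.all_eq_true, Nat.ble_eq, List.mem_range] at this
  by_cases he : e < 93
  · exact this.1.2 e he
  · simp [std, sl0, ble_false (show 92 < e by omega)]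

theorem n_tri (hs : s ≤ 33) (he : e ≤ 90) :
    D.n s e = (D.F gen s).n e ∧ tri (D.b s e) 0 = true := by
  have := h.shape hs
  simp only [Dat.shape, Bool.and_eq_true, List.all_eq_true, Nat.beq_eq, List.mem_range] at this
  exact this.2 e (by omega)

theorem lk_right {i : D.Ix s} {j j' : D.Ix (s + 1)} (h1 : Dat.Lk i j) (h2 : Dat.Lk i j') :
    j = j' := by
  have h3 := h1.2.1.symm.trans h2.2.1
  have := j.2.2.trans_le (h.n_le _ _)
  have := j'.2.2.trans_le (h.n_le _ _)
  have := h1.1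
  have := h2.1
  rw [cd_eq, cd_eq] at h3
  exact Dat.Ix.ext (by omega) (by omega)

theorem lk_left {i i' : D.Ix s} {j : D.Ix (s + 1)} (h1 : Dat.Lk i j) (h2 : Dat.Lk i' j) :
    i = i' := by
  have h3 := h1.2.2.symm.trans h2.2.2
  have := i.2.2.trans_le (h.n_le _ _)
  have := i'.2.2.trans_le (h.n_le _ _)
  have := h1.1
  have := h2.1
  rw [cd_eq, cd_eq] at h3
  exact Dat.Ix.ext (by omega) (by omega)

theorem ex_right (hs : s ≤ 32) (i : D.Ix s) (hi : D.tt s i.1 i.2 ≠ 0) : ∃ j, Dat.Lk i j := by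
  have := (h.cks hs).2.1
  simp only [Dat.ck1, List.all_eq_true, List.mem_range, Bool.or_eq_true, Bool.and_eq_true,
    Nat.beq_eq, Nat.ble_eq, Nat.blt_eq, Nat.sub_eq] at this
  obtain ⟨⟨h1, h2⟩, h3⟩ := (this _ i.1.2 _ i.2.2).resolve_left hi
  have h4 : i.1.1 - (i.1.1 - ca (D.tt s i.1 i.2)) = ca (D.tt s i.1 i.2) := by omega
  refine ⟨⟨⟨_, (Nat.sub_le _ _).trans_lt i.1.2⟩, _, h2⟩, Nat.sub_le _ _, ?_, by rwa [h4]⟩
  simp only [h4]
  simp only [cd_eq, ca_eq, ck_eq]
  omega

theorem ex_left (hs : s ≤ 32) (j : D.Ix (s + 1)) (hj : D.ss (s + 1) j.1 j.2 ≠ 0) :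
    ∃ i, Dat.Lk i j := by
  have := (h.cks hs).2.2
  simp only [Dat.ck2, List.all_eq_true, List.mem_range, Bool.or_eq_true, Bool.and_eq_true,
    Nat.beq_eq, Nat.ble_eq, Nat.blt_eq, Nat.add_eq] at this
  obtain ⟨⟨h1, h2⟩, h3⟩ := (this _ j.1.2 _ j.2.2).resolve_left hj
  refine ⟨⟨⟨_, Nat.lt_succ_of_le h1⟩, _, h2⟩, Nat.le_add_right _ _,
    by rwa [Nat.add_sub_cancel_left], ?_⟩
  simp only [Nat.add_sub_cancel_left, cd_eq, ca_eq, ck_eq]
  omega

theorem homF (hs : s ≤ 33) (d : ℕ) (f : ℕ → F3) : HomW R s (2 * d) ((D.F gen s).den d f) :=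
  Fam.den_hom (h.dg s hs).hom d f

/-- the normal form -/
abbrev nf : NF R where
  I := D.Ix
  fin _ := Sigma.instFintype
  wt i := i.1
  b {s} i := (D.Fb gen s).vec i.1 i.2
  tau := Dat.tau
  hom {s} i := h.homF (by
    by_contra hs
    have := i.2.2
    simp [Dat.n, Dat.b, ble_false (not_le.1 hs)] at this) _ _
  le e := (Dat.lk_of_tau e).1
  inj e e' := h.lk_left (Dat.lk_of_tau e) (Dat.lk_of_tau e')

theorem tau_iff {i : D.Ix s} {j : D.Ix (s + 1)} : Dat.tau i = some j ↔ Dat.Lk i j :=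
  ⟨Dat.lk_of_tau, fun e => by
    rw [Dat.tau, dif_pos ⟨j, e⟩]
    exact congrArg some (h.lk_right (Exists.choose_spec ⟨j, e⟩) e)⟩

theorem tau_none {i : D.Ix s} (hi : D.tt s i.1 i.2 = 0) : Dat.tau i = none :=
  Option.eq_none_iff_forall_ne_some.2 fun j e => by
    have := (h.tau_iff.1 e).2.1
    rw [hi, cd_eq] at this
    omega

theorem dif (hs : s ≤ 32) : h.nf.Dif s := fun i => by
  have h1 := h.clm s hs _ (List.mem_append_left _ (List.mem_flatMap.2
    ⟨i.1, List.mem_range.2 i.1.2, List.mem_map.2 ⟨i.2, List.mem_range.2 i.2.2, rfl⟩⟩))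
  simp only [Cm.Ok, lT, pol_t, pow_zero, add_zero] at h1
  constructor
  · intro h2
    have h3 : D.tt s i.1 i.2 = 0 := by
      by_contra h3
      obtain ⟨j, hj⟩ := h.ex_right hs i h3
      exact absurd ((h.tau_iff.2 hj).symm.trans h2) nofun
    rw [h3, Nat.beq_refl, cond_true, show TV.val (0, 0) = fun _ => 0 from funext fun _ =>
      TV.val_zero, Fam.den_zero, sub_zero] at h1
    exact h1
  · intro j h2
    obtain ⟨h3, h4, -⟩ := h.tau_iff.1 h2
    have h5 := j.2.2.trans_le (h.n_le _ _)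
    have h6 : ca (D.tt s i.1 i.2) = i.1.1 - j.1.1 := by rw [h4, ca_eq, cd_eq]; omega
    have h7 : ck (D.tt s i.1 i.2) = j.2.1 := by rw [h4, ck_eq, cd_eq]; omega
    have h8 := Fam.den_shl (h.sn_le (s := s + 1) (by omega)) (D.bv (s + 1) j.1 j.2) (d := j.1)
      (i.1.1 - j.1.1)
    rw [h6, h7, Bool.eq_false_iff.2 (mt Nat.eq_of_beq_eq_true (by rw [h4, cd_eq]; omega)),
      cond_false, Nat.sub_eq, Nat.sub_sub_self h3, Nat.mul_eq] at h1
    rw [Nat.add_sub_cancel' h3] at h8
    rw [h8] at h1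
    exact h1

theorem sum_wt (hd : d ≤ 90) (c : D.Ix s → F3) (f : ℕ → F3)
    (hc : ∀ i : D.Ix s, i.1.1 = d → c i = f i.2) :
    (∑ i : h.nf.I s, if h.nf.wt i = d then (C (c i) : A) • h.nf.b i else 0) =
      (D.Fb gen s).lay d f := by
  refine (Fintype.sum_sigma _).trans ((Finset.sum_eq_single ⟨d, by omega⟩
    (fun e _ he => Finset.sum_eq_zero fun k _ => if_neg fun e => he (Fin.ext e))
    (by simp)).trans ?_)
  rw [Fam.lay, Finset.sum_range]
  exact Finset.sum_congr rfl fun k _ => (if_pos rfl).trans (by rw [hc _ rfl])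

theorem lay_eq (d : ℕ) (f : ℕ → F3) : Neg 1 ((D.Fb gen s).lay d f -
    (D.F gen s).lay d fun i => ∑ k ∈ range (D.n s d), f k * (D.bv s d k).val i) := by
  refine Neg.trans (Neg.of_eq ?_) (Fam.den_lay d _)
  rw [Fam.den_sum]
  exact Finset.sum_congr rfl fun i _ => (Fam.den_mul _ _ _).symm

theorem unit (hs : s ≤ 33) (hd : d ≤ 90) :
    IsUnit (Matrix.of fun k i : Fin (D.n s d) => (D.bv s d k).val i) := by
  have h1 := tri_spec _ _ (h.n_tri hs hd).2 (h.wf_n s d).1
  simp only [zero_add] at h1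
  rw [Matrix.isUnit_iff_isUnit_det, Matrix.det_of_isLowerTriangular, isUnit_iff_ne_zero]
  · exact Finset.prod_ne_zero_iff.2 fun k _ => (h1 k k.2).1
  · exact fun k i hi => (h1 k k.2).2 i hi (i.2.trans_le (h.n_le _ _))

theorem sp (hs : s ≤ 33) (hd : d ≤ 90) : h.nf.Sp s d := fun w hw => by
  obtain ⟨f, hf⟩ := (h.dg s hs).span (by omega) w hw
  obtain ⟨c, hc⟩ := Matrix.vecMul_surjective_iff_isUnit.2 (h.unit hs hd) fun i => f i
  let g : ℕ → F3 := fun k => if hk : k < D.n s d then c ⟨k, hk⟩ else 0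
  refine ⟨fun i => g i.2, ?_⟩
  rw [h.sum_wt hd _ g fun _ _ => rfl]
  refine hf.trans ((h.lay_eq d g).trans (Neg.of_eq (Fam.lay_congr fun i hi => ?_))).symm
  rw [← (h.n_tri hs hd).1] at hi
  rw [← congrFun hc ⟨i, hi⟩, Finset.sum_range]
  exact Finset.sum_congr rfl fun k _ => by simp [g]

theorem li (hs : s ≤ 33) (hd : d ≤ 90) : h.nf.Li s d := fun c hc i hi => by
  let g : ℕ → F3 := fun k => if hk : k < D.n s d then c ⟨⟨d, by omega⟩, k, hk⟩ else 0
  have hg : ∀ i : D.Ix s, i.1.1 = d → c i = g i.2 := by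
    rintro ⟨⟨e, he⟩, k, hk⟩ rfl
    simp only [g, dif_pos hk]
  rw [h.sum_wt hd c g hg] at hc
  have h1 := (h.dg s hs).indep _ (by
    simpa only [sub_sub_cancel] using hc.sub (h.lay_eq (s := s) d g))
  have h2 := Matrix.vecMul_injective_iff_isUnit.2 (h.unit hs hd)
    (a₁ := fun k => g k) (a₂ := 0) (funext fun i => by
      have h3 := h1 i ((h.n_tri hs hd).1 ▸ i.2)
      rw [Finset.sum_range] at h3
      exact h3.trans (congrFun (Matrix.zero_vecMul _) i).symm)
  rw [hg i hi]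
  exact congrFun h2 ⟨i.2, (show i.1.1 = d from hi) ▸ i.2.2⟩

/-- the coordinates of a window -/
def cf (D : Dat) (s d : ℕ) (f : ℕ → F3) (i : D.Ix s) : F3 := f (64 * (d - i.1) + i.2)

theorem comb_cf : ∀ d ≤ 90, ∀ f, h.nf.comb d (cf D s d f) = (D.Fb gen s).den d f
  | 0, hd, f => by
    rw [NF.comb_zero', h.sum_wt hd _ f fun i _ => by simp [cf]]
    rfl
  | d + 1, hd, f => by
    rw [NF.comb_succ, h.sum_wt hd _ f fun i hi => by simp [cf, hi], Fam.den, add_comm,
      ← comb_cf d (by omega), NF.comb_eq (c' := cf D s d fun k => f (k + 64)) fun i hi => ?_]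
    rw [cf, cf, show 64 * (d + 1 - i.1) + i.2 = 64 * (d - i.1) + i.2 + 64 by
      have : i.1.1 ≤ d := hi
      omega]

end Hyp

end Vale.Agent.P236N

end
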