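import Vale.Agent.P236N.DatF
import Vale.Agent.P236S.Tab

/-!
# P236N: the data fit the tables of the derivation
-/

namespace Vale.Agent.P236N

open Vale.Agent.P236B Vale.Agent.P236T Vale.Agent.P236S

variable {G : Type} [Fintype G] [DecidableEq G] {R : Res 3 G} {gen : ℕ → G} {D : Dat}

theorem Dat.mem_P {s i d k : ℕ} {q : TV} (h : D.has s i d k q = true) : (i, s, d, k, q) ∈ D.P := by
  simp only [Dat.has, Bool.and_eq_true, Nat.ble_eq, List.any_eq_true, Nat.beq_eq, Nat.blt_eq,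
    TV.eq_iff] at h
  obtain ⟨⟨h1, h2⟩, B, hB, ⟨⟨rfl, rfl⟩, h3⟩, rfl⟩ := h
  obtain ⟨s, rfl⟩ : ∃ a, s = a + 1 := ⟨s - 1, by omega⟩
  exact List.mem_flatMap.2 ⟨s, List.mem_range.2 (by omega), List.mem_flatMap.2
    ⟨B, hB, List.mem_map.2 ⟨k, List.mem_range.2 h3, rfl⟩⟩⟩

theorem Hyp.fit {T : ℕ → ℕ} (K : Cmp R 6 T) (hT : ∀ s ≤ 32, 180 ≤ T s) (h : Hyp R gen D)
    {N N' : List (List ℕ)} {P : List (List (List ℕ))} (E : List (List (List ℕ)))
    (hn : ∀ s ≤ 32, D.ckN N' s = true)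
    (hN : allLt (fun s => allLt (fun d => Nat.beq ((N'.getD s []).getD d 0)
      (nth 0 (nth [] N s) d)) 91) 33 = true)
    (hr : ∀ s < P.length, rowAll (D.has s) (nth [] P s) = true) :
    ∃ M : Mdl, (mkT N P E).Fit M ∧
      (M.Span 2 9 ∧ M.n 2 9 = 1 ∧ Kl 2 12 ∧ Cg (M.m 5) (M.x 2 9 0)) ∧ M.Span 4 54 := by
  obtain ⟨M, h1, h2⟩ := h.facts K hT
  refine ⟨M, fit_of (fun s hs d hd => ?_) h2.good fun s hs => ⟨_, hr s hs, fun i d k q hq =>
    h2.row _ (Dat.mem_P hq)⟩, h2.span29, h2.span454⟩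
  have h3 := hn s hs
  simp only [Dat.ckN, List.all_eq_true, List.mem_range, Nat.beq_eq] at h3
  rw [h1, h3 d (by omega)]
  exact Nat.eq_of_beq_eq_true (allLt_spec (allLt_spec hN s (by omega)) d (by omega))

theorem Cm.Ok.congr {dl dl' : ℕ → List ℕ} {s : ℕ} {c : Cm} (h : c.Ok R gen dl s)
    (h1 : dl s = dl' s) (h2 : dl (s + 1) = dl' (s + 1)) : c.Ok R gen dl' s := by
  rwa [Cm.Ok, ← h1, ← h2]

end Vale.Agent.P236N
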