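import Vale.Agent.P236N.NF
import Vale.Agent.P236T.Chase

/-!
# P236N: formal consequences of the rules for the differential

* `δ` vanishes on `1`, `v₁`, `h₀`, `h₁`, `b₀`;
* the Leibniz rule for Bocksteins of classes of degree one, linearity over `b₀` and `v₁`;
* reduction of the exactness statements along the multiplication by `b₀`.
-/

namespace Vale.Agent.P236T

open Vale.Agent.P236N

/-- Multiplication by `b₀ ^ K` as an isomorphism, below the line `w = 9 (s - 1)`. -/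
noncomputable def bE (K : ℕ) {a s : ℕ} {v w : ℤ} (h : a + 2 * K = s) (k : v + 6 * (K : ℕ) = w)
    (ha : 2 ≤ a) (hv : v + 9 ≤ 9 * a) : HQ a v ≃+ HQ s w :=
  AddEquiv.ofBijective ((H.cup h k).flip (bp K))
    ⟨(injective_iff_map_eq_zero _).2 (inj_bp K h k ha hv),
      onto_bp K h k (by omega) (by omega)⟩

theorem bE_apply (K : ℕ) {a s : ℕ} {v w : ℤ} (h : a + 2 * K = s) (k : v + 6 * (K : ℕ) = w)
    (ha : 2 ≤ a) (hv : v + 9 ≤ 9 * a) (x : HQ a v) : bE K h k ha hv x = H.cup h k x (bp K) := rfl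

theorem vp_cup (m : ℕ) {a b n : ℕ} {v w u v' u' : ℤ} (h : a + b = n) (k : v + w = u)
    (k1 : v + 2 * m = v') (k2 : u + 2 * m = u') (x : HQ a v) (y : HQ b w) :
    vp m k2 (H.cup h k x y) = H.cup h (show v' + w = u' by omega) (vp m k1 x) y := by
  induction m generalizing v' u' with
  | zero =>
    obtain rfl : v = v' := by simpa using k1
    obtain rfl : u = u' := by simpa using k2
    rw [vp_zero, vp_zero]
  | succ m ih =>
    rw [vp_succ, vp_succ, ih rfl]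
    exact (H.cup_assoc _ _ _ _ _ _ _ _ _ _ _).symm

/-- The bound for the `v₁`-torsion goes up along the multiplication by `b₀`. -/
theorem kl_up {a s : ℕ} {v w : ℤ} (H0 : Kl a v) (ha : 1 ≤ a) (hv : v ≤ 9 * a) (K : ℕ)
    (h : a + 2 * K = s) (k : v + 6 * (K : ℕ) = w) : Kl s w := fun k2 y => by
  obtain ⟨x, rfl⟩ := onto_bp K h k ha hv y
  rw [vp_cup 3 h k rfl, H0, map_zero, AddMonoidHom.zero_apply]

namespace Delta

variable (Δ : Delta)

theorem δ_low {s t : ℕ} {w u : ℤ} (hs : s + 5 = t) (hw : w + 2 = u) (h : u + 2 ≤ 3 * t)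
    (x : HQ s w) : Δ.δ hs hw x = 0 := eq_zero_of_line h _

theorem δ_one {t : ℕ} {u : ℤ} (hs : 0 + 5 = t) (hw : 0 + 2 = u) : Δ.δ hs hw (H.one Q3) = 0 :=
  Δ.δ_low hs hw (by omega) _

theorem δ_v1 {t : ℕ} {u : ℤ} (hs : 0 + 5 = t) (hw : 2 + 2 = u) : Δ.δ hs hw v1 = 0 :=
  Δ.δ_low hs hw (by omega) _

theorem δ_h0 {t : ℕ} {u : ℤ} (hs : 1 + 5 = t) (hw : 2 + 2 = u) : Δ.δ hs hw h0 = 0 :=
  Δ.δ_low hs hw (by omega) _

theorem δ_h1 {t : ℕ} {u : ℤ} (hs : 1 + 5 = t) (hw : 6 + 2 = u) : Δ.δ hs hw h1 = 0 :=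
  Δ.δ_low hs hw (by omega) _

theorem δ_b0 {t : ℕ} {u : ℤ} (hs : 2 + 5 = t) (hw : 6 + 2 = u) : Δ.δ hs hw b0 = 0 :=
  Δ.δ_low hs hw (by omega) _

/-- The Leibniz rule for a class of degree one which is killed by `δ`. -/
theorem leib_cyc {s n s' t : ℕ} {v w u v' w' r : ℤ} (h1 : 1 + s = n) (h2 : n + 5 = t)
    (h3 : s + 5 = s') (k1 : v + w = u) (k2 : u + 2 = r) (k3 : v + 2 = v') (k4 : w + 2 = w')
    {x : HQ 1 v} (hx : Δ.δ (t := 6) rfl k3 x = 0) (z : HQ s w) :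
    Δ.δ h2 k2 (H.cup h1 k1 x z) =
      -H.cup (show 1 + s' = t by omega) (show v + w' = r by omega) x (Δ.δ h3 k4 z) := by
  rw [Δ.leib h1 h2 h3 k1 k2 k3 k4, hx, map_zero, AddMonoidHom.zero_apply, zero_sub]

/-- The same for the multiplication on the right. -/
theorem leib_cyc' {s n s' t : ℕ} {v w u v' w' r : ℤ} (h1 : s + 1 = n) (h2 : n + 5 = t)
    (h3 : s + 5 = s') (k1 : w + v = u) (k2 : u + 2 = r) (k3 : v + 2 = v') (k4 : w + 2 = w')
    {x : HQ 1 v} (hx : Δ.δ (t := 6) rfl k3 x = 0) (z : HQ s w) :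
    Δ.δ h2 k2 (H.cup h1 k1 z x) =
      H.cup (show s' + 1 = t by omega) (show w' + v = r by omega) (Δ.δ h3 k4 z) x := by
  have h := Δ.leib_cyc (show 1 + s = n by omega) h2 h3 (show v + w = u by omega) k2 k3 k4 hx z
  rw [H.cup_comm_one _ h1 _ k1, H.cup_comm_one _ (show s' + 1 = t by omega) _
    (show w' + v = r by omega), map_zsmul, ← neg_smul,
    show -(-1 : ℤ) ^ s' = (-1) ^ s by rw [← h3, pow_add]; ring] at h
  have h4 := congrArg (((-1 : ℤ) ^ s) • ·) h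
  simpa only [smul_smul, ← mul_pow, neg_one_mul, neg_neg, one_pow, one_smul] using h4

theorem δ_h0_mul {s n s' t : ℕ} {w u w' r : ℤ} (h1' : 1 + s = n) (h2 : n + 5 = t)
    (h3 : s + 5 = s') (k1 : 2 + w = u) (k2 : u + 2 = r) (k4 : w + 2 = w') (z : HQ s w) :
    Δ.δ h2 k2 (H.cup h1' k1 h0 z) =
      -H.cup (show 1 + s' = t by omega) (show 2 + w' = r by omega) h0 (Δ.δ h3 k4 z) :=
  Δ.leib_cyc h1' h2 h3 k1 k2 rfl k4 (Δ.δ_h0 _ _) z

theorem δ_h1_mul {s n s' t : ℕ} {w u w' r : ℤ} (h1' : 1 + s = n) (h2 : n + 5 = t)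
    (h3 : s + 5 = s') (k1 : 6 + w = u) (k2 : u + 2 = r) (k4 : w + 2 = w') (z : HQ s w) :
    Δ.δ h2 k2 (H.cup h1' k1 h1 z) =
      -H.cup (show 1 + s' = t by omega) (show 6 + w' = r by omega) h1 (Δ.δ h3 k4 z) :=
  Δ.leib_cyc h1' h2 h3 k1 k2 rfl k4 (Δ.δ_h1 _ _) z

theorem δ_mul_h0 {s n s' t : ℕ} {w u w' r : ℤ} (h1' : s + 1 = n) (h2 : n + 5 = t)
    (h3 : s + 5 = s') (k1 : w + 2 = u) (k2 : u + 2 = r) (k4 : w + 2 = w') (z : HQ s w) :
    Δ.δ h2 k2 (H.cup h1' k1 z h0) =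
      H.cup (show s' + 1 = t by omega) (show w' + 2 = r by omega) (Δ.δ h3 k4 z) h0 :=
  Δ.leib_cyc' h1' h2 h3 k1 k2 rfl k4 (Δ.δ_h0 _ _) z

/-- The Leibniz rule for the Bockstein of a class of degree one. -/
theorem leibB {s n s' t : ℕ} {v w u v' w' r : ℤ} (h1 : 2 + s = n) (h2 : n + 5 = t)
    (h3 : s + 5 = s') (k1 : v + w = u) (k2 : u + 2 = r) (k3 : v + 2 = v') (k4 : w + 2 = w')
    (x : HQ 1 v) (z : HQ s w) :
    Δ.δ h2 k2 (H.cup h1 k1 (P236T.bock (t := 2) rfl x) z) =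
      H.cup (show 7 + s = t by omega) (show v' + w = r by omega)
          (Δ.δ rfl k3 (P236T.bock (t := 2) rfl x)) z +
        H.cup (show 2 + s' = t by omega) (show v + w' = r by omega)
          (P236T.bock (t := 2) rfl x) (Δ.δ h3 k4 z) := by
  have e1 := bock_cup (show 1 + s = s + 1 by omega) k1 (a' := 2) rfl rfl
    (show s + 1 + 1 = n by omega) x z
  rw [pow_one, neg_smul, one_smul, ← sub_eq_add_neg, eq_sub_iff_add_eq] at e1
  rw [← e1, map_add, Δ.bock _ h2 (show s + 1 + 5 = s + 6 from rfl) k2,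
    Δ.leib _ _ h3 k1 k2 k3 k4, Δ.leib _ h2 (show s + 1 + 5 = s + 6 from rfl) k1 k2 k3 k4,
    Δ.bock rfl _ h3 k4, Δ.bock (s' := 6) rfl rfl rfl k3, map_sub,
    bock_cup (a' := 7) _ _ rfl rfl, bock_cup (a' := 2) _ _ rfl (show s' + 1 = s + 6 by omega),
    map_neg, map_neg, AddMonoidHom.neg_apply, show ((-1 : ℤ) ^ 6) = 1 by norm_num, one_smul,
    pow_one, neg_smul, one_smul]
  abel

theorem δ_b0_mul {s n s' t : ℕ} {w u w' r : ℤ} (h1' : 2 + s = n) (h2 : n + 5 = t)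
    (h3 : s + 5 = s') (k1 : 6 + w = u) (k2 : u + 2 = r) (k4 : w + 2 = w') (z : HQ s w) :
    Δ.δ h2 k2 (H.cup h1' k1 b0 z) =
      H.cup (show 2 + s' = t by omega) (show 6 + w' = r by omega) b0 (Δ.δ h3 k4 z) := by
  have h := Δ.leibB h1' h2 h3 k1 k2 rfl k4 h1 z
  have e : P236T.bock (t := 2) rfl h1 = -b0 := bock_h1
  rw [Δ.δ_low rfl rfl (by norm_num), map_zero, AddMonoidHom.zero_apply, zero_add, e, map_neg,
    map_neg, AddMonoidHom.neg_apply, AddMonoidHom.neg_apply, map_neg] at h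
  exact neg_injective h

theorem δ_mul_b0 {s n s' t : ℕ} {w u w' r : ℤ} (h1' : s + 2 = n) (h2 : n + 5 = t)
    (h3 : s + 5 = s') (k1 : w + 6 = u) (k2 : u + 2 = r) (k4 : w + 2 = w') (z : HQ s w) :
    Δ.δ h2 k2 (H.cup h1' k1 z b0) =
      H.cup (show s' + 2 = t by omega) (show w' + 6 = r by omega) (Δ.δ h3 k4 z) b0 := by
  rw [← cup_comm_b0 (show 2 + s = n by omega) h1' (show 6 + w = u by omega) k1,
    Δ.δ_b0_mul _ h2 h3 _ k2 k4, cup_comm_b0]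

theorem δ_mul_bp (K : ℕ) {s n s' t : ℕ} {w u w' r : ℤ} (h1' : s + 2 * K = n) (h2 : n + 5 = t)
    (h3 : s + 5 = s') (k1 : w + 6 * (K : ℕ) = u) (k2 : u + 2 = r) (k4 : w + 2 = w')
    (z : HQ s w) : Δ.δ h2 k2 (H.cup h1' k1 z (bp K)) =
      H.cup (show s' + 2 * K = t by omega) (show w' + 6 * (K : ℕ) = r by omega)
        (Δ.δ h3 k4 z) (bp K) := by
  induction K generalizing n t u r with
  | zero =>
    obtain rfl : s = n := h1'
    obtain rfl : w = u := by simpa using k1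
    obtain rfl : s' = t := by omega
    obtain rfl : w' = r := by omega
    exact (congrArg _ (H.cup_one rfl (add_zero _) z)).trans (H.cup_one rfl (add_zero _) _).symm
  | succ K ih =>
    rw [cup_bp_step, cup_bp_step, Δ.δ_mul_b0 _ h2 (show s + 2 * K + 5 = s' + 2 * K by omega) _ k2
      (show w + 6 * (K : ℕ) + 2 = w' + 6 * (K : ℕ) by omega), ih]

theorem δ_vp (m : ℕ) {s t : ℕ} {w u w' u' : ℤ} (hs : s + 5 = t) (hw : w + 2 = u)
    (k1 : w + 2 * m = w') (k2 : w' + 2 = u') (z : HQ s w) :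
    Δ.δ hs k2 (vp m k1 z) = vp m (show u + 2 * m = u' by omega) (Δ.δ hs hw z) := by
  induction m generalizing w' u' with
  | zero =>
    obtain rfl : w = w' := by simpa using k1
    obtain rfl : u = u' := by omega
    rw [vp_zero, vp_zero]
  | succ m ih =>
    rw [vp_succ, vp_succ, Δ.v1_mul hs (show w + 2 * m + 2 = u + 2 * m by omega), ih]

/-! ### exactness -/

variable {Δ}

theorem ex_of_line {s : ℕ} {w : ℤ} (h : w + 2 ≤ 3 * s) : Δ.Ex s w :=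
  fun _ _ _ _ y _ => ⟨0, by rw [eq_zero_of_line h y, map_zero]⟩

/-- It suffices to hit the products of the cycles of a lower group with a power of `b₀`. -/
theorem ex_of_div (K : ℕ) {a s : ℕ} {v w : ℤ} (h : a + 2 * K = s) (k : v + 6 * (K : ℕ) = w)
    (ha : 1 ≤ a) (hv : v ≤ 9 * a) {b t : ℕ} {r u : ℤ} (h1 : b + 5 = s) (h2 : a + 5 = t)
    (k1 : r + 2 = w) (k2 : v + 2 = u) (H0 : ∀ y : HQ a v, Δ.δ h2 k2 y = 0 →
      ∃ x : HQ b r, H.cup h k y (bp K) = Δ.δ h1 k1 x) : Δ.Ex s w := by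
  intro b' t' r' u' h1' h2' k1' k2' y hy
  obtain rfl : b = b' := by omega
  obtain rfl : r = r' := by omega
  obtain ⟨y, rfl⟩ := onto_bp K h k ha hv y
  rw [Δ.δ_mul_bp K h h2' h2 k k2' k2] at hy
  exact H0 y (inj_bp K _ _ (by omega) (by omega) _ hy)

/-- Exactness goes up along the multiplication by `b₀`. -/
theorem Ex.up {a : ℕ} {v : ℤ} (H0 : Δ.Ex a v) (ha : 5 ≤ a) (hv : v ≤ 9 * a) (K : ℕ) {s : ℕ}
    {w : ℤ} (h : a + 2 * K = s) (k : v + 6 * (K : ℕ) = w) : Δ.Ex s w := by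
  obtain ⟨b, rfl⟩ : ∃ b, a = b + 5 := ⟨a - 5, by omega⟩
  refine ex_of_div K h k (by omega) hv (b := b + 2 * K) (r := v - 2 + 6 * (K : ℕ)) (by omega) rfl
    (by omega) rfl fun y hy => ?_
  obtain ⟨x, rfl⟩ := H0 (v := v - 2) rfl rfl (by omega) rfl y hy
  exact ⟨_, (Δ.δ_mul_bp K rfl _ rfl rfl _ _ x).symm⟩

/-- To prove exactness one may fix the indices. -/
theorem ex_of {a s t : ℕ} {v w u : ℤ} (h1 : a + 5 = s) (h2 : s + 5 = t) (k1 : v + 2 = w)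
    (k2 : w + 2 = u) (H0 : ∀ y : HQ s w, Δ.δ h2 k2 y = 0 → ∃ x : HQ a v, y = Δ.δ h1 k1 x) :
    Δ.Ex s w := by
  intro a' t' v' u' h1' h2' k1' k2'
  obtain rfl : a = a' := by omega
  obtain rfl : t = t' := by omega
  obtain rfl : v = v' := by omega
  obtain rfl : u = u' := by omega
  exact H0

/-- The stem `106` needs three filtrations. -/
theorem j2_of (h : Δ.Start 27 (w := 54) (u := 56) rfl) (h10 : Δ.Ex 10 58) (h14 : Δ.Ex 14 60)
    (h18 : Δ.Ex 18 62) : Δ.J2 := by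
  refine ⟨h, fun s w hs hw h2 => ?_⟩
  by_cases h3 : w + 2 ≤ 3 * s
  · exact ex_of_line h3
  obtain ⟨rfl, rfl⟩ | ⟨rfl, rfl⟩ | ⟨rfl, rfl⟩ :
    s = 10 ∧ w = 58 ∨ s = 14 ∧ w = 60 ∨ s = 18 ∧ w = 62 := by omega
  exacts [h10, h14, h18]

/-- The last clause of `J3 27` and `Col 27`. -/
theorem tail_of (h22 : Δ.Ex 22 172) (h26 : Δ.Ex 26 174) (s : ℕ) (w : ℤ) (h1 : 22 ≤ s)
    (h2 : s < 27) (h3 : s + 322 = 2 * w) (h4 : 2 ∣ w) : Δ.Ex s w := by
  obtain ⟨rfl, rfl⟩ | ⟨rfl, rfl⟩ : s = 22 ∧ w = 172 ∨ s = 26 ∧ w = 174 := by omega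
  exacts [h22, h26]

end Delta

end Vale.Agent.P236T
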