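import Vale.Agent.P236N.Pk
import Vale.Agent.P236N.Dl

/-!
# P236N: named classes

The interface between the normal forms and the derivation of the values of the differential.
The index `d` is half of the weight.
-/

noncomputable section

namespace Vale.Agent.P236N

open Vale.Agent.P236T Finset Vale.Agent.P257.H314 Vale.Agent.P251.F Vale.Agent.P251.I

/-- the cohomology in level `s` and degree `d` -/
abbrev HD (s d : ℕ) : Type := HQ s ((2 * d : ℕ) : ℤ)

/-- `x` and `x'` differ by a multiple of `v₁ ^ 3` -/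
def Cg {s : ℕ} {u : ℤ} (x x' : HQ s u) : Prop :=
  ∃ y : HQ s (u - 6), x - x' = vp 3 (by omega) y

namespace Cg

variable {s : ℕ} {u : ℤ} {x x' y y' : HQ s u}

theorem of_eq (h : x = x') : Cg x x' := ⟨0, by rw [h, sub_self, map_zero]⟩

theorem add (h : Cg x x') (k : Cg y y') : Cg (x + y) (x' + y') := by
  obtain ⟨a, ha⟩ := h
  obtain ⟨b, hb⟩ := k
  exact ⟨a + b, by rw [map_add, ← ha, ← hb]; abel⟩

theorem neg (h : Cg x x') : Cg (-x) (-x') := by
  obtain ⟨a, ha⟩ := h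
  exact ⟨-a, by rw [map_neg, ← ha]; abel⟩

theorem symm (h : Cg x x') : Cg x' x := by
  obtain ⟨a, ha⟩ := h
  exact ⟨-a, by rw [map_neg, ← ha]; abel⟩

theorem trans (h : Cg x x') (k : Cg x' y) : Cg x y := by
  obtain ⟨a, ha⟩ := h
  obtain ⟨b, hb⟩ := k
  exact ⟨a + b, by rw [map_add, ← ha, ← hb]; abel⟩

theorem eq (h : Cg x x') (hK : Kl s (u - 6)) : x = x' := by
  obtain ⟨a, ha⟩ := h
  exact sub_eq_zero.1 (ha.trans (hK _ a))

/-- The differential does not see the difference. -/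
theorem delta (Δ : Delta) {t : ℕ} {r : ℤ} (hs : s + 5 = t) (hu : u + 2 = r) (h : Cg x x')
    (hK : Kl t (r - 6)) : Δ.δ hs hu x = Δ.δ hs hu x' := by
  obtain ⟨a, ha⟩ := h
  rw [← sub_eq_zero, ← map_sub, ha, Δ.δ_vp 3 hs (show u - 6 + 2 = r - 6 by omega)]
  exact hK _ _

end Cg

/-- named classes and multipliers -/
structure Mdl where
  /-- the number of named classes -/
  n : ℕ → ℕ → ℕ
  /-- the named classes -/
  x : ∀ s d : ℕ, ℕ → HD s d
  /-- the multipliers -/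
  m : ∀ i, HD (mA i) (mF i)
  m0 : m 0 = v1
  m1 : m 1 = h0
  m2 : m 2 = h1
  m4 : m 4 = b0
  m5 : ∃ y : HQ 1 18, m 5 = bock (t := 2) rfl y
  m6 : m 6 = x 1 27 0
  start : ∃ (h : Cob Laz 1) (hw : Cob.IsWt 54 h) (hd : Cob.d 1 h ∈ IC 3 1 2) (n : ℕ),
    x 1 27 0 = cl h hw hd ∧ h - (1 : ℤ) * t1 ^ 27 ∈ IC 3 n 1

namespace Mdl

variable (M : Mdl)

/-- a combination of the named classes -/
def cb (s d : ℕ) (f : ℕ → F3) : HD s d := ∑ k ∈ range (M.n s d), (f k).val • M.x s d k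

/-- the named classes span modulo `v₁ ^ 3` -/
def Span (s d : ℕ) : Prop := ∀ y : HD s d, ∃ f, Cg y (M.cb s d f)

/-- the named classes are independent modulo `v₁ ^ 3` -/
def Ind (s d : ℕ) : Prop := ∀ f, Cg (M.cb s d f) 0 → ∀ k < M.n s d, f k = 0

/-- the named classes are a basis -/
def Good (s d : ℕ) : Prop := M.Span s d ∧ M.Ind s d ∧ Kl s ((2 * d : ℕ) - 6)

/-- the product of the multiplier `i` with a named class -/
def Row (i s d k : ℕ) (p : TV) : Prop :=
  ∀ {t e : ℕ} (hs : mA i + s = t) (hd : mF i + d = e),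
    Cg (H.cup hs (by omega) (M.m i) (M.x s d k)) (M.cb t e p.val)

/-- the facts which are delivered by the normal forms; `P` is a list of `(i, s, d, k, p)` -/
structure Facts (P : List (ℕ × ℕ × ℕ × ℕ × TV)) : Prop where
  good : ∀ s d, 5 ≤ s → s ≤ 32 → d ≤ 90 → (s = 5 → d ≤ 87) → M.Good s d
  span29 : M.Span 2 9 ∧ M.n 2 9 = 1 ∧ Kl 2 12 ∧ Cg (M.m 5) (M.x 2 9 0)
  span454 : M.Span 4 54
  row : ∀ r ∈ P, M.Row r.1 r.2.1 r.2.2.1 r.2.2.2.1 r.2.2.2.2

end Mdl

end Vale.Agent.P236N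

end
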