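import Vale.Agent.P236N.Defs
import Vale.Agent.P236T.Per

/-!
# P236N: normal forms of the small complex and coordinates on `HQ`

The index `d` is half of the weight. A normal form consists of homogeneous vectors `b i` in every
level and of a matching `tau`, such that `dW (b i) = v₁ ^ a • b (tau i)` modulo `v₁ ^ 6`.
-/

noncomputable section

namespace Vale.Agent.P236N

open MvPolynomial Vale.Agent.P236B Vale.Agent.P236T Finset Vale.Agent.P257.H314
  Vale.Agent.P257.H80

set_option linter.unusedSectionVars false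

variable {G : Type} [Fintype G] {R : Res 3 G}

/-! ### vectors modulo `v₁ ^ m` -/

namespace Neg

variable {m n : ℕ} {w w' : G → A}

theorem zero : Neg m (0 : G → A) := fun _ => dvd_zero _

theorem of_eq (h : w = w') : Neg m (w - w') := by rw [h, sub_self]; exact zero

theorem add (h : Neg m w) (h' : Neg m w') : Neg m (w + w') := fun g => (h g).add (h' g)

theorem neg (h : Neg m w) : Neg m (-w) := fun g => (h g).neg_right

theorem sub (h : Neg m w) (h' : Neg m w') : Neg m (w - w') := fun g => (h g).sub (h' g)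

theorem symm (h : Neg m (w - w')) : Neg m (w' - w) := by simpa using h.neg

theorem trans {w'' : G → A} (h : Neg m (w - w')) (h' : Neg m (w' - w'')) : Neg m (w - w'') := by
  simpa using h.add h'

theorem smul (h : Neg m w) (c : A) : Neg m (c • w) := fun g => (h g).mul_left c

theorem mono (h : Neg m w) (hn : n ≤ m) : Neg n w := fun g => (pow_dvd_pow _ hn).trans (h g)

theorem pow (hn : m ≤ n) (w : G → A) : Neg m ((X 0 ^ n : A) • w) :=
  fun g => (pow_dvd_pow _ hn).mul_right (w g)

theorem vmul (h : Neg m w) (n : ℕ) : Neg (n + m) ((X 0 ^ n : A) • w) := fun g => by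
  rw [pow_add]
  exact mul_dvd_mul_left _ (h g)

theorem cancel (h : Neg (n + m) ((X 0 ^ n : A) • w)) : Neg m w := fun g => by
  have := h g
  rw [pow_add] at this
  exact (mul_dvd_mul_iff_left (pow_ne_zero _ (X_ne_zero 0))).1 this

theorem sum {ι : Type*} {S : Finset ι} {f : ι → G → A} (h : ∀ i ∈ S, Neg m (f i)) :
    Neg m (∑ i ∈ S, f i) := fun g => by
  rw [Finset.sum_apply]
  exact Finset.dvd_sum fun i hi => h i hi g

theorem exists_eq (h : Neg m w) : ∃ u, w = (X 0 ^ m : A) • u := by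
  choose u hu using h
  exact ⟨u, funext hu⟩

end Neg

theorem wE_single : wE 3 (Finsupp.single 0 1) = 2 := by simp [Finsupp.weight_apply, wv]

namespace HomW

variable {s e : ℕ} {w w' : G → A}

theorem zero : HomW R s e 0 := fun _ _ h => absurd rfl h

theorem add (h : HomW R s e w) (h' : HomW R s e w') : HomW R s e (w + w') := fun g α hα => by
  by_cases h1 : coeff α (w g) = 0
  · exact h' g α fun h2 => hα (by simp [h1, h2])
  · exact h g α h1

theorem cmul (h : HomW R s e w) (c : F3) : HomW R s e ((C c : A) • w) :=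
  fun g α hα => h g α fun h1 => hα (by simp [h1])

theorem neg (h : HomW R s e w) : HomW R s e (-w) := fun g α hα => h g α fun h1 => hα (by simp [h1])

theorem sub (h : HomW R s e w) (h' : HomW R s e w') : HomW R s e (w - w') := by
  rw [sub_eq_add_neg]
  exact h.add h'.neg

theorem sum {ι : Type*} {S : Finset ι} {f : ι → G → A} (h : ∀ i ∈ S, HomW R s e (f i)) :
    HomW R s e (∑ i ∈ S, f i) :=
  Finset.sum_induction _ _ (fun _ _ => add) zero h

theorem vmul (h : HomW R s e w) : HomW R s (e + 2) ((X 0 : A) • w) := fun g α hα => by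
  rw [Pi.smul_apply, smul_eq_mul, coeff_X_mul'] at hα
  split_ifs at hα with h1
  · have h2 := h g _ hα
    have h3 : α = α - Finsupp.single 0 1 + Finsupp.single 0 1 := (tsub_add_cancel_of_le
      (Finsupp.single_le_iff.2 (Nat.one_le_iff_ne_zero.2 (Finsupp.mem_support_iff.1 h1)))).symm
    rw [h3, wE, map_add]
    have := wE_single
    unfold wE at *
    omega
  · exact absurd rfl hα

theorem vpow (h : HomW R s e w) : ∀ n : ℕ, HomW R s (e + 2 * n) ((X 0 ^ n : A) • w)
  | 0 => by simpa using h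
  | n + 1 => by
    rw [pow_succ', mul_smul]
    exact (vpow h n).vmul

theorem div (h : HomW R s e ((X 0 : A) • w)) (g : G) (α : ℕ →₀ ℕ) (hα : coeff α (w g) ≠ 0) :
    wE 3 α + R.deg s g + 2 = e := by
  have := h g (Finsupp.single 0 1 + α) (by rwa [Pi.smul_apply, smul_eq_mul, coeff_X_mul])
  rw [wE, map_add] at this
  have h1 := wE_single
  unfold wE at *
  omega

end HomW

theorem eta_C (c : F3) : eta (C c) = C (C c) := kx_C _ _ _

theorem ac_add (s : ℕ) (y : Gam) (w w' : G → A) : ac R s y (w + w') = ac R s y w + ac R s y w' :=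
  funext fun g => by simp only [ac, Pi.add_apply, map_add, mul_add, Finset.sum_add_distrib]

theorem ac_smul {c : A} (hc : eta c = C c) (s : ℕ) (y : Gam) (w : G → A) :
    ac R s y (c • w) = c • ac R s y w := funext fun g => by
  simp only [ac, Pi.smul_apply, smul_eq_mul, map_mul, hc, Finset.mul_sum]
  exact Finset.sum_congr rfl fun g' _ => by rw [mul_left_comm, act_C_mul]

theorem ac_zero (s : ℕ) (y : Gam) : ac R s y 0 = 0 := funext fun g => by simp [ac]

theorem ac_neg (s : ℕ) (y : Gam) (w : G → A) : ac R s y (-w) = -ac R s y w :=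
  eq_neg_of_add_eq_zero_left (by rw [← ac_add, neg_add_cancel, ac_zero])

theorem ac_sub (s : ℕ) (y : Gam) (w w' : G → A) : ac R s y (w - w') = ac R s y w - ac R s y w' := by
  rw [sub_eq_add_neg, ac_add, ac_neg, sub_eq_add_neg]

theorem ac_sum (s : ℕ) (y : Gam) {ι : Type*} (S : Finset ι) (f : ι → G → A) :
    ac R s y (∑ i ∈ S, f i) = ∑ i ∈ S, ac R s y (f i) :=
  map_sum (AddMonoidHom.mk' (ac R s y) (ac_add s y)) f S

theorem ClFacts.eta_mon (F : ClFacts) (c : F3) (n : ℕ) :
    eta (C c * X 0 ^ n) = C (C c * X 0 ^ n) := by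
  rw [map_mul, map_pow, eta_C, F.eta_v1, map_mul, map_pow]

theorem ClFacts.neg_ac (F : ClFacts) {m : ℕ} {w : G → A} (h : Neg m w) (s : ℕ) (y : Gam) :
    Neg m (ac R s y w) := by
  obtain ⟨u, rfl⟩ := h.exists_eq
  rw [ac_smul (by simpa using F.eta_mon 1 m)]
  exact Neg.pow le_rfl _

theorem ClFacts.ac_congr (F : ClFacts) {m : ℕ} {w w' : G → A} (h : Neg m (w - w')) (s : ℕ)
    (y : Gam) : Neg m (ac R s y w - ac R s y w') := ac_sub s y w w' ▸ F.neg_ac h s y

/-! ### powers of `v₁` on `HQ` -/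

theorem vp_succ {s m : ℕ} {u u' : ℤ} (h : u + 2 * (m + 1 : ℕ) = u') (x : HQ s u) :
    vp (m + 1) h x = H.cup (w := u + 2 * m) (zero_add s) (by omega) v1 (vp m rfl x) := rfl

theorem vp_zero {s : ℕ} {u : ℤ} (h : u + 2 * (0 : ℕ) = u) (x : HQ s u) : vp 0 h x = x :=
  H.one_cup _ _ x

theorem vp_succ' {s m : ℕ} {u u' u'' : ℤ} (h : u + 2 * (m + 1 : ℕ) = u'') (k : u + 2 * m = u')
    (x : HQ s u) : vp (m + 1) h x = H.cup (zero_add s) (by omega) v1 (vp m k x) := by
  subst k
  rfl

theorem vp_add {s n : ℕ} {u u' : ℤ} (k : u + 2 * n = u') (x : HQ s u) : ∀ (m : ℕ) {u'' : ℤ}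
    (h : u' + 2 * m = u'') (h' : u + 2 * (n + m : ℕ) = u''), vp (n + m) h' x = vp m h (vp n k x)
  | 0, _, h, h' => by
    obtain rfl : u' = _ := by simpa using h
    exact (vp_zero _ _).symm
  | m + 1, _, h, h' => by
    rw [vp_succ h, ← vp_add k x m rfl (by omega)]
    exact vp_succ' h' _ x

/-- `v₁ ^ 3` kills `HQ s u`. -/
def Kl (s : ℕ) (u : ℤ) : Prop := ∀ {u' : ℤ} (h : u + 2 * (3 : ℕ) = u') (x : HQ s u), vp 3 h x = 0

theorem kl_of_line {s : ℕ} {u : ℤ} (h : u + 2 ≤ 3 * s) : Kl s u := fun _ x => by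
  rw [eq_zero_of_line h x, map_zero]

namespace Cmp

variable {T : ℕ → ℕ} (K : Cmp R 6 T)

theorem sub {m s : ℕ} {u : ℤ} {x x' : HQ s u} {w w' : G → A} (h : K.Rep m x w)
    (h' : K.Rep m x' w') : K.Rep m (x - x') (w - w') := by
  rw [sub_eq_add_neg, sub_eq_add_neg]
  exact K.add h (K.neg h')

theorem sum {m s : ℕ} {u : ℤ} {ι : Type*} {S : Finset ι} {x : ι → HQ s u} {w : ι → G → A}
    (h : ∀ i ∈ S, K.Rep m (x i) (w i)) : K.Rep m (∑ i ∈ S, x i) (∑ i ∈ S, w i) := by
  classical
  induction S using Finset.induction_on with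
  | empty => exact K.zero _ _ _
  | insert i S hi ih =>
    rw [Finset.sum_insert hi, Finset.sum_insert hi]
    exact K.add (h i (by simp)) (ih fun j hj => h j (by simp [hj]))

theorem nsmul {m s : ℕ} {u : ℤ} {x : HQ s u} {w : G → A} (h : K.Rep m x w) :
    ∀ n : ℕ, K.Rep m (n • x) (n • w)
  | 0 => by simpa using K.zero _ _ _
  | n + 1 => by
    rw [succ_nsmul, succ_nsmul]
    exact K.add (nsmul h n) h

theorem cmul {m s : ℕ} {u : ℤ} {x : HQ s u} {w : G → A} (h : K.Rep m x w) (c : F3) :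
    K.Rep m (c.val • x) ((C c : A) • w) := by
  have := K.nsmul h c.val
  rwa [← Nat.cast_smul_eq_nsmul A _ w, ← map_natCast (C : F3 →+* A), ZMod.natCast_zmod_val] at this

theorem vp {m s : ℕ} {u : ℤ} {x : HQ s u} {w : G → A} (h : K.Rep m x w) : ∀ (n : ℕ) {u' : ℤ}
    (k : u + 2 * n = u'), K.Rep (m + n) (vp n k x) ((X 0 ^ n : A) • w)
  | 0, _, k => by
    obtain rfl : u = _ := by simpa using k
    rw [vp_zero, pow_zero, one_smul]
    exact h
  | n + 1, _, k => by
    rw [pow_succ', mul_smul]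
    exact K.v1 (by omega) (vp h n rfl)

include K in
/-- coboundaries are cocycles -/
theorem neg_dd {s e : ℕ} {c : G → A} (hc : HomW R s e c) (he : e ≤ T (s + 1)) :
    Neg 6 (dW R (s + 1) (dW R s c)) := by
  simpa using K.cyc le_rfl he rfl (K.congr_d rfl (K.zero 6 (s + 1) e) hc)

include K in
theorem neg_d_of (F : ClFacts) {s e : ℕ} {c f : G → A} (hc : HomW R s e c) (he : e ≤ T (s + 1))
    (h : Neg 6 (dW R s c - f)) : Neg 6 (dW R (s + 1) f) := by
  simpa [dW] using (K.neg_dd hc he).sub (F.ac_congr (R := R) h (s + 1) 1)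

theorem eq_zero {s d : ℕ} {u : ℤ} (hu : u = (2 * d : ℕ)) (hT : 2 * d ≤ T s) (hK : Kl s (u - 6))
    {x : HQ s u} (h : K.Rep 3 x 0) : x = 0 := by
  obtain ⟨x', rfl⟩ := K.inj (u' := u - 6) (by omega) (by omega) hT hu h
  exact hK _ _

end Cmp

/-! ### normal forms -/

/-- the data of a normal form -/
structure NF (R : Res 3 G) where
  /-- the indices in level `s` -/
  I : ℕ → Type
  /-- finiteness -/
  fin : ∀ s, Fintype (I s)
  /-- half of the weight -/
  wt : ∀ {s}, I s → ℕ
  /-- the vectors -/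
  b : ∀ {s}, I s → G → A
  /-- the matching -/
  tau : ∀ {s}, I s → Option (I (s + 1))
  hom : ∀ {s} (i : I s), HomW R s (2 * wt i) (b i)
  le : ∀ {s} {i : I s} {j}, tau i = some j → wt j ≤ wt i
  inj : ∀ {s} {i i' : I s} {j}, tau i = some j → tau i' = some j → i = i'

namespace NF

variable (N : NF R)

instance (s : ℕ) : Fintype (N.I s) := N.fin s

/-- the combination of the vectors in degree `d` -/
def comb {s : ℕ} (d : ℕ) (c : N.I s → F3) : G → A :=
  ∑ i, if N.wt i ≤ d then (C (c i) * X 0 ^ (d - N.wt i) : A) • N.b i else 0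

/-- the differential of the vectors -/
def Dif (s : ℕ) : Prop := ∀ i : N.I s,
  (N.tau i = none → Neg 6 (dW R s (N.b i))) ∧ ∀ j, N.tau i = some j →
    Neg 6 (dW R s (N.b i) - (X 0 ^ (N.wt i - N.wt j) : A) • N.b j)

/-- the vectors of degree `d` span modulo `v₁` -/
def Sp (s d : ℕ) : Prop := ∀ w, HomW R s (2 * d) w → ∃ c : N.I s → F3,
  Neg 1 (w - ∑ i, if N.wt i = d then (C (c i) : A) • N.b i else 0)

/-- the vectors of degree `d` are independent modulo `v₁` -/
def Li (s d : ℕ) : Prop := ∀ c : N.I s → F3,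
  Neg 1 (∑ i, if N.wt i = d then (C (c i) : A) • N.b i else 0) → ∀ i, N.wt i = d → c i = 0

/-- `j` is not hit in degree `d` -/
def Alive {s : ℕ} (d : ℕ) (j : N.I (s + 1)) : Prop := ∀ i, N.tau i = some j → d < N.wt i

variable {N} {s d m : ℕ}

theorem comb_hom (c : N.I s → F3) : HomW R s (2 * d) (N.comb d c) :=
  HomW.sum fun i _ => by
    split_ifs with h
    · rw [mul_smul, show 2 * d = 2 * N.wt i + 2 * (d - N.wt i) by omega]
      exact ((N.hom i).vpow _).cmul _
    · exact HomW.zero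

theorem comb_add (c c' : N.I s → F3) : N.comb d (c + c') = N.comb d c + N.comb d c' := by
  rw [comb, comb, comb, ← Finset.sum_add_distrib]
  exact Finset.sum_congr rfl fun i _ => by split_ifs <;> simp [add_mul, add_smul]

theorem comb_zero : N.comb d (0 : N.I s → F3) = 0 := by simp [comb]

theorem comb_neg (c : N.I s → F3) : N.comb d (-c) = -N.comb d c :=
  eq_neg_of_add_eq_zero_left (by rw [← comb_add, neg_add_cancel, comb_zero])

theorem comb_sub (c c' : N.I s → F3) : N.comb d (c - c') = N.comb d c - N.comb d c' := by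
  rw [sub_eq_add_neg, comb_add, comb_neg, sub_eq_add_neg]

theorem comb_smul (r : F3) (c : N.I s → F3) : N.comb d (r • c) = (C r : A) • N.comb d c := by
  rw [comb, comb, Finset.smul_sum]
  exact Finset.sum_congr rfl fun i _ => by split_ifs <;> simp [smul_smul, mul_assoc]

theorem comb_congr {c c' : N.I s → F3} (h : ∀ i, N.wt i ≤ d → d < N.wt i + m → c i = c' i) :
    Neg m (N.comb d c - N.comb d c') := by
  rw [← comb_sub]
  refine Neg.sum fun i _ => ?_
  split_ifs with h1
  · by_cases h2 : d < N.wt i + m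
    · simpa [h i h1 h2] using Neg.zero
    · rw [mul_smul]
      exact (Neg.pow (by omega) _).smul _
  · exact Neg.zero

theorem comb_single [DecidableEq (N.I s)] {i : N.I s} (h : N.wt i ≤ d) (r : F3) :
    N.comb d (Pi.single i r) = (C r * X 0 ^ (d - N.wt i) : A) • N.b i := by
  rw [comb, Finset.sum_eq_single i (fun j _ hj => by simp [hj]) (by simp), if_pos h,
    Pi.single_eq_same]

theorem comb_succ (c : N.I s → F3) : N.comb (d + 1) c = (X 0 : A) • N.comb d c +
    ∑ i, if N.wt i = d + 1 then (C (c i) : A) • N.b i else 0 := by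
  rw [comb, comb, Finset.smul_sum, ← Finset.sum_add_distrib]
  refine Finset.sum_congr rfl fun i _ => ?_
  by_cases h : N.wt i ≤ d
  · rw [if_pos h, if_pos (by omega), if_neg (by omega), add_zero, smul_smul,
      show d + 1 - N.wt i = d - N.wt i + 1 by omega, pow_succ', mul_left_comm]
  · by_cases h' : N.wt i = d + 1
    · simp [h']
    · rw [if_neg h, if_neg h', if_neg (by omega), smul_zero, add_zero]

theorem comb_zero' (c : N.I s → F3) :
    N.comb 0 c = ∑ i, if N.wt i = 0 then (C (c i) : A) • N.b i else 0 := by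
  simp [comb]

theorem vpow_comb (n : ℕ) (c : N.I s → F3) : (X 0 ^ n : A) • N.comb d c =
    N.comb (d + n) fun i => if N.wt i ≤ d then c i else 0 := by
  rw [comb, comb, Finset.smul_sum]
  refine Finset.sum_congr rfl fun i _ => ?_
  by_cases h : N.wt i ≤ d
  · rw [if_pos h, if_pos h, if_pos (by omega), smul_smul,
      show d + n - N.wt i = n + (d - N.wt i) by omega, pow_add, mul_left_comm]
  · simp [h]

theorem span : ∀ (m d : ℕ), (∀ e ≤ d, d < e + m → N.Sp s e) → ∀ w, HomW R s (2 * d) w →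
    ∃ c : N.I s → F3, Neg m (w - N.comb d c)
  | 0, _, _, _, _ => ⟨0, fun _ => by simp⟩
  | m + 1, d, h, w, hw => by
    obtain ⟨c, hc⟩ := h d le_rfl (by omega) w hw
    obtain ⟨u, hu⟩ := hc.exists_eq
    rw [pow_one] at hu
    have h1 : HomW R s (2 * d) ((X 0 : A) • u) := hu ▸ hw.sub (HomW.sum fun i _ => by
      split_ifs with h
      exacts [h ▸ (N.hom i).cmul _, HomW.zero])
    cases d with
    | zero =>
      obtain rfl : u = 0 := funext fun g => MvPolynomial.ext _ _ fun α => by_contra fun hα => by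
        have := h1.div g α hα
        omega
      exact ⟨c, by rw [comb_zero', hu, smul_zero]; exact Neg.zero⟩
    | succ d =>
      obtain ⟨c', hc'⟩ := span m d (fun e h1 h2 => h e (by omega) (by omega)) u fun g α hα => by
        have := h1.div g α hα
        omega
      refine ⟨fun i => if N.wt i = d + 1 then c i else c' i, ?_⟩
      have h2 := ((hc'.trans (comb_congr (c' := fun i => if N.wt i = d + 1 then c i else c' i)
        fun i h1 _ => (if_neg (by omega)).symm)).vmul 1).mono (n := m + 1) (by omega)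
      rw [pow_one, smul_sub, ← hu] at h2
      rw [comb_succ, add_comm (_ • _), ← sub_sub]
      convert h2 using 3
      exact Finset.sum_congr rfl fun i _ => by split_ifs <;> rfl

theorem indep : ∀ (m d : ℕ), (∀ e ≤ d, d < e + m → N.Li s e) → ∀ c : N.I s → F3,
    Neg m (N.comb d c) → ∀ i, N.wt i ≤ d → d < N.wt i + m → c i = 0
  | 0, _, _, _, _, _, _, _ => by omega
  | m + 1, 0, h, c, hc, i, h1, _ =>
    h 0 le_rfl (by omega) c (comb_zero' c ▸ hc.mono (by omega)) i (by omega)
  | m + 1, d + 1, h, c, hc, i, h1, h2 => by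
    rw [comb_succ] at hc
    have h3 := h (d + 1) le_rfl (by omega) c (by
      simpa using (hc.mono (n := 1) (by omega)).sub (Neg.pow (n := 1) le_rfl (N.comb d c)))
    by_cases hi : N.wt i = d + 1
    · exact h3 i hi
    · rw [Finset.sum_eq_zero (fun j _ => by
        split_ifs with hj
        exacts [by simp [h3 j hj], rfl]), add_zero, add_comm, ← pow_one (X 0 : A)] at hc
      exact indep m d (fun e h1 h2 => h e (by omega) (by omega)) c hc.cancel i (by omega) (by omega)

open Classical in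
/-- the differential in coordinates -/
def tc (d : ℕ) (c : N.I s → F3) (j : N.I (s + 1)) : F3 :=
  ∑ i, if N.tau i = some j ∧ N.wt i ≤ d then c i else 0

theorem tc_eq {c : N.I s → F3} {i : N.I s} {j : N.I (s + 1)} (h : N.tau i = some j)
    (hi : N.wt i ≤ d) : tc d c j = c i := by
  rw [tc, Finset.sum_eq_single i (fun k _ hk => if_neg fun e => hk (N.inj e.1 h)) (by simp),
    if_pos ⟨h, hi⟩]

theorem tc_alive {c : N.I s → F3} {j : N.I (s + 1)} (h : N.Alive d j) : tc d c j = 0 :=
  Finset.sum_eq_zero fun i _ => if_neg fun e => (h i e.1).not_ge e.2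

theorem d_comb (F : ClFacts) (h : N.Dif s) (c : N.I s → F3) :
    Neg 6 (dW R s (N.comb d c) - N.comb d (tc d c)) := by
  classical
  have h1 : N.comb d (tc d c) = ∑ i, ∑ j, if N.tau i = some j ∧ N.wt i ≤ d then
      (C (c i) * X 0 ^ (d - N.wt j) : A) • N.b j else 0 := by
    rw [Finset.sum_comm, comb]
    refine Finset.sum_congr rfl fun j _ => ?_
    split_ifs with hj
    · rw [tc, map_sum, Finset.sum_mul, Finset.sum_smul]
      exact Finset.sum_congr rfl fun i _ => by split_ifs <;> simp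
    · exact (Finset.sum_eq_zero fun i _ => if_neg fun e => hj ((N.le e.1).trans e.2)).symm
  rw [h1, comb, dW, ac_sum, ← Finset.sum_sub_distrib]
  refine Neg.sum fun i _ => ?_
  split_ifs with hi
  swap
  · simpa [hi, ac_zero] using Neg.zero
  rw [ac_smul (F.eta_mon _ _)]
  cases ht : N.tau i with
  | none => simpa [dW] using ((h i).1 ht).smul _
  | some j =>
    rw [Finset.sum_eq_single j (fun k _ hk => if_neg fun e => hk (Option.some.inj e.1).symm)
      (by simp), if_pos ⟨rfl, hi⟩, show d - N.wt j = d - N.wt i + (N.wt i - N.wt j) by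
        have := N.le ht; omega, pow_add, ← mul_assoc, mul_smul _ (X 0 ^ (N.wt i - N.wt j)),
      ← smul_sub]
    exact ((h i).2 j ht).smul _

variable {T : ℕ → ℕ} (K : Cmp R 6 T) {u : ℤ}

/-- Coordinates at dead targets can be changed. -/
theorem rep_congr (F : ClFacts) (h : N.Dif s) (hu : u = (2 * d : ℕ)) (hm : m ≤ 6) {x : HQ (s + 1) u}
    {c c' : N.I (s + 1) → F3} (hx : K.Rep m x (N.comb d c))
    (hc : ∀ j, N.wt j ≤ d → d < N.wt j + m → N.Alive d j → c j = c' j) :
    K.Rep m x (N.comb d c') := by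
  let e : N.I s → F3 := fun i => (N.tau i).elim 0 fun j => c' j - c j
  refine K.congr (K.congr_d hu hx (comb_hom e)) ?_
  have h1 := ((d_comb F h (d := d) e).mono hm).add (comb_congr (m := m) (d := d) (c := c + tc d e)
    (c' := c') fun j h1 h2 => by
      by_cases h3 : N.Alive d j
      · rw [Pi.add_apply, tc_alive h3, add_zero, hc j h1 h2 h3]
      · obtain ⟨i, h4, h5⟩ : ∃ i, N.tau i = some j ∧ N.wt i ≤ d := by
          simpa [Alive] using h3
        simp [tc_eq h4 h5, e, h4])
  rw [comb_add] at h1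
  convert h1 using 1
  abel

/-- Independence of the live vectors. -/
theorem of_rep_zero (F : ClFacts) (h : N.Dif s) (hu : u = (2 * d : ℕ)) (hm : m ≤ 6)
    (hT : 2 * d ≤ T (s + 1)) (h1 : ∀ e ≤ d, d < e + m → N.Sp s e)
    (h2 : ∀ e ≤ d, d < e + m → N.Li (s + 1) e) {c : N.I (s + 1) → F3}
    (hx : K.Rep m (0 : HQ (s + 1) u) (N.comb d c)) (j : N.I (s + 1)) (j1 : N.wt j ≤ d)
    (j2 : d < N.wt j + m) (j3 : N.Alive d j) : c j = 0 := by
  obtain ⟨w, h3, h4⟩ := K.of_zero hm hT hu hx
  obtain ⟨e, he⟩ := span m d h1 w h3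
  have := indep m d h2 (c - tc d e) (comb_sub c _ ▸ (h4.trans (F.ac_congr he s 1)).trans
    ((d_comb F h e).mono hm)) j j1 j2
  rwa [Pi.sub_apply, tc_alive j3, sub_zero] at this

/-- Every class has coordinates which vanish on the sources of short bars. -/
theorem exists_rep (F : ClFacts) (h : N.Dif s) (hu : u = (2 * d : ℕ)) (hT : 2 * d ≤ T s)
    (h1 : ∀ e ≤ d, d < e + 6 → N.Sp s e) (h2 : ∀ e ≤ d, d < e + 6 → N.Li (s + 1) e)
    (x : HQ s u) : ∃ c : N.I s → F3, K.Rep 6 x (N.comb d c) ∧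
      ∀ i j, N.tau i = some j → N.wt i ≤ d → d < N.wt j + 6 → c i = 0 := by
  obtain ⟨w, h3, h4⟩ := K.ex hu x
  obtain ⟨c, hc⟩ := span 6 d h1 w h3
  have h5 := K.congr (h4 6) hc
  refine ⟨c, h5, fun i j e1 e2 e3 => ?_⟩
  rw [← tc_eq (c := c) e1 e2]
  exact indep 6 d h2 _ (by simpa using (K.cyc le_rfl hT hu h5).sub (d_comb F h (d := d) c)) j
    ((N.le e1).trans e2) e3

include K in
/-- The step of the chain which bounds the `v₁`-torsion. -/
theorem kl_step (F : ClFacts) (h : N.Dif s) (h' : N.Dif (s + 1)) (hu : u = (2 * d : ℕ))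
    (hT : 2 * (d + 3) ≤ T (s + 1)) (hT' : 2 * d ≤ T (s + 1))
    (h1 : ∀ e ≤ d, d < e + 6 → N.Sp (s + 1) e) (h2 : ∀ e ≤ d, d < e + 6 → N.Li (s + 2) e)
    (h3 : ∀ i : N.I (s + 1), N.wt i ≤ d → d < N.wt i + 3 →
      (∃ j, N.tau i = some j ∧ d < N.wt j + 6) ∨ ¬N.Alive (d + 3) i)
    (hK : Kl (s + 1) (u - 6)) : Kl (s + 1) u := fun {u'} k x => by
  obtain ⟨c, h4, h5⟩ := exists_rep K F h' hu hT' h1 h2 x
  have h6 := K.vp (K.mono (show 3 ≤ 6 by omega) h4) 3 k
  rw [vpow_comb] at h6
  have h7 := rep_congr K F h (d := d + 3) (by omega) le_rfl h6 (c' := 0) fun j e1 e2 e3 => by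
    by_cases e4 : N.wt j ≤ d
    · obtain ⟨k, e5, e6⟩ := (h3 j e4 (by omega)).resolve_right (not_not.2 e3)
      simp [h5 j k e5 e4 e6]
    · simp [e4]
  rw [comb_zero] at h7
  obtain ⟨x', hx'⟩ := K.inj (u' := u - 6) (by omega) le_rfl hT (by omega) h7
  rw [hx', vp_add (n := 3) (u' := u) (by omega) x' 3 k, hK, map_zero]

/-- Existence of classes. -/
theorem exists_class (h : N.Dif s) {i : N.I s} (hi : N.tau i = none)
    (hu : u = (2 * N.wt i : ℕ)) (hT : 2 * N.wt i ≤ T s) (hK : Kl (s + 1) (u - 12)) :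
    ∃ x : HQ s u, K.Rep 3 x (N.b i) :=
  K.surj (r := 3) (u' := u - 12) (u'' := u - 6) (by omega) (by omega) hT hu (by omega) (N.hom i)
    ((h i).1 hi) (hK _)

end NF

end Vale.Agent.P236N

end
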