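import Vale.Agent.P236N.NF
import Vale.Agent.P236N.Ex

/-!
# P236N: packed vectors

* `TV`: vectors over `F₃` as two bit planes;
* `Fam.den F d f`: the vector `∑ f (64 j + i) • v₁ ^ j • vec (d - j) i` of degree `d`;
* `std`: the monomial basis of a level, `Cm.Ok`: the claims which are checked by evaluation.
-/

namespace Vale.Agent.P236N

open MvPolynomial Vale.Agent.P236B Vale.Agent.P236T Finset Vale.Agent.P257.H80

namespace TV

/-- the entries -/
def val (x : TV) (k : ℕ) : F3 :=
  (if x.1.testBit k then 1 else 0) - (if x.2.testBit k then 1 else 0)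

variable {x y : TV} {k : ℕ}

theorem eq_iff : eq x y = true ↔ x = y := by
  simp [eq, Prod.ext_iff]

theorem wf_iff : wf x = true ↔ ∀ k, ¬(x.1.testBit k = true ∧ x.2.testBit k = true) := by
  rw [wf, Nat.beq_eq]
  constructor
  · intro h k hk
    have := congrArg (·.testBit k) h
    simp [hk.1, hk.2] at this
  · intro h
    exact Nat.eq_of_testBit_eq fun k => by simpa using h k

theorem mod_eq (a b : ℕ) : Nat.mod a b = a % b := rfl

theorem div_eq (a b : ℕ) : Nat.div a b = a / b := rfl

theorem wf_zero : wf (0, 0) = true := by simp [wf]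

@[simp] theorem val_zero : val (0, 0) k = 0 := by simp [val]

theorem wf_add (hx : wf x = true) (hy : wf y = true) : wf (add x y) = true := by
  rw [wf_iff] at *
  intro k
  have h1 := hx k
  have h2 := hy k
  simp only [add, Nat.xor_eq, Nat.lor_eq, Nat.testBit_xor, Nat.testBit_or]
  revert h1 h2
  cases x.1.testBit k <;> cases x.2.testBit k <;> cases y.1.testBit k <;> cases y.2.testBit k <;>
    simp

theorem val_add (hx : wf x = true) (hy : wf y = true) (k : ℕ) :
    val (add x y) k = val x k + val y k := by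
  have h1 := wf_iff.1 hx k
  have h2 := wf_iff.1 hy k
  simp only [val, add, Nat.xor_eq, Nat.lor_eq, Nat.testBit_xor, Nat.testBit_or]
  revert h1 h2
  cases x.1.testBit k <;> cases x.2.testBit k <;> cases y.1.testBit k <;> cases y.2.testBit k <;>
    decide

theorem wf_neg (hx : wf x = true) : wf (neg x) = true :=
  wf_iff.2 fun k h => wf_iff.1 hx k h.symm

@[simp] theorem val_neg : val (neg x) k = -val x k := (neg_sub _ _).symm

theorem wf_shl (hx : wf x = true) (a : ℕ) : wf (shl x a) = true :=
  wf_iff.2 fun k h => wf_iff.1 hx (k - a) (by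
    simp only [shl, Nat.shiftLeft_eq', Nat.testBit_shiftLeft, Bool.and_eq_true] at h
    exact ⟨h.1.2, h.2.2⟩)

theorem val_shl (a : ℕ) : val (shl x a) k = if a ≤ k then val x (k - a) else 0 := by
  by_cases h : a ≤ k <;> simp [val, shl, Nat.testBit_shiftLeft, h]

theorem wf_shr (hx : wf x = true) (a : ℕ) : wf (shr x a) = true :=
  wf_iff.2 fun k h => wf_iff.1 hx (a + k) (by simpa [shr] using h)

theorem val_shr (a : ℕ) : val (shr x a) k = val x (k + a) := by
  simp [val, shr, add_comm]

theorem wf_msk (hx : wf x = true) (m : ℕ) : wf (msk x m) = true :=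
  wf_iff.2 fun k h => wf_iff.1 hx k (by
    simp only [msk, Nat.land_eq, Nat.testBit_and, Bool.and_eq_true] at h
    exact ⟨h.1.1, h.2.1⟩)

theorem val_msk (m : ℕ) : val (msk x m) k = if m.testBit k then val x k else 0 := by
  cases h : m.testBit k <;> simp [val, msk, h]

theorem wf_low (hx : wf x = true) (a : ℕ) : wf (low x a) = true :=
  wf_iff.2 fun k h => wf_iff.1 hx k (by
    simp only [low, mod_eq, Nat.pow_eq, Nat.testBit_mod_two_pow, Bool.and_eq_true] at h
    exact ⟨h.1.2, h.2.2⟩)

theorem val_low (a : ℕ) : val (low x a) k = if k < a then val x k else 0 := by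
  by_cases h : k < a <;> simp [val, low, mod_eq, Nat.testBit_mod_two_pow, h]

theorem val_unit (i : ℕ) : val (Nat.pow 2 i, 0) k = if k = i then 1 else 0 := by
  simp [val, Nat.testBit_two_pow, eq_comm]

theorem wf_unit (i : ℕ) : wf (i, 0) = true := by simp [wf]

theorem mv_spec : ∀ (rs : List TV) (p n : ℕ), (∀ r ∈ rs, wf r = true) → wf (mv rs p n) = true ∧
    ∀ k, val (mv rs p n) k = ∑ i ∈ range rs.length, val (p, n) i * val (rs.getD i (0, 0)) k
  | [], _, _, _ => ⟨wf_zero, fun k => by simp [mv]⟩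
  | r :: rs, p, n, h => by
    obtain ⟨h1, h2⟩ := mv_spec rs (Nat.div p 2) (Nat.div n 2) fun r hr => h r (by simp [hr])
    have h3 := h r (by simp)
    have h4 : ∀ i, val (p, n) (i + 1) = val (Nat.div p 2, Nat.div n 2) i := fun i => by
      simp [val, Nat.testBit_succ, div_eq]
    have h5 : ∀ q : ℕ, Nat.beq (Nat.mod q 2) 1 = q.testBit 0 := fun q => by
      rw [Nat.testBit_zero, Bool.eq_iff_iff]
      simp [mod_eq]
    simp only [mv, List.length_cons, Finset.sum_range_succ', List.getD_cons_succ, h4, ← h2, h5,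
      List.getD_cons_zero]
    rw [show val (p, n) 0 = (if p.testBit 0 then 1 else 0) - (if n.testBit 0 then 1 else 0) from rfl]
    cases p.testBit 0 <;> cases n.testBit 0 <;>
      simp [h1, wf_add, wf_neg, h3, val_add]

theorem wf_mvW : ∀ (ts : List (List TV)) (p n : ℕ), (∀ t ∈ ts, ∀ r ∈ t, wf r = true) →
    wf (mvW ts p n) = true
  | [], _, _, _ => wf_zero
  | t :: ts, p, n, h => wf_add (mv_spec t p n (h t (by simp))).1
      (wf_shl (wf_mvW ts _ _ fun t ht => h t (by simp [ht])) _)

end TV

noncomputable section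

/-- a family of vectors in every degree -/
structure Fam (G : Type) where
  /-- the number of vectors -/
  n : ℕ → ℕ
  /-- the vectors -/
  vec : ℕ → ℕ → G → A

namespace Fam

variable {G : Type} (F : Fam G)

/-- a combination of the vectors of degree `e` -/
def lay (e : ℕ) (f : ℕ → F3) : G → A := ∑ i ∈ range (F.n e), (C (f i) : A) • F.vec e i

/-- a vector of degree `d`: the entry `64 j + i` belongs to `v₁ ^ j • vec (d - j) i` -/
def den : ℕ → (ℕ → F3) → G → A
  | 0, f => F.lay 0 f
  | d + 1, f => F.lay (d + 1) f + (X 0 : A) • den d fun k => f (k + 64)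

variable {F} {d e m : ℕ} {f f' : ℕ → F3}

theorem lay_congr (h : ∀ i < F.n e, f i = f' i) : F.lay e f = F.lay e f' :=
  Finset.sum_congr rfl fun i hi => by rw [h i (mem_range.1 hi)]

theorem lay_add (f f' : ℕ → F3) : F.lay e (fun k => f k + f' k) = F.lay e f + F.lay e f' := by
  simp [lay, add_smul, Finset.sum_add_distrib]

theorem lay_mul (c : F3) (f : ℕ → F3) : F.lay e (fun k => c * f k) = (C c : A) • F.lay e f := by
  simp [lay, mul_smul, Finset.smul_sum]

theorem lay_zero : F.lay e (fun _ => 0) = 0 := by simp [lay]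

theorem den_add : ∀ (d : ℕ) (f f' : ℕ → F3),
    F.den d (fun k => f k + f' k) = F.den d f + F.den d f'
  | 0, _, _ => lay_add _ _
  | d + 1, f, f' => by
    rw [den, den, den, lay_add, den_add d, smul_add]
    abel

theorem den_mul (c : F3) : ∀ (d : ℕ) (f : ℕ → F3),
    F.den d (fun k => c * f k) = (C c : A) • F.den d f
  | 0, _ => lay_mul _ _
  | d + 1, f => by rw [den, den, lay_mul, den_mul c d, smul_add, smul_comm]

theorem den_zero (d : ℕ) : F.den d (fun _ => 0) = 0 := by
  simpa using den_mul (F := F) 0 d fun _ => 0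

theorem den_neg (d : ℕ) (f : ℕ → F3) : F.den d (fun k => -f k) = -F.den d f := by
  simpa using den_mul (F := F) (-1) d f

theorem den_sum {ι : Type*} (S : Finset ι) (d : ℕ) (f : ι → ℕ → F3) :
    F.den d (fun k => ∑ i ∈ S, f i k) = ∑ i ∈ S, F.den d (f i) := by
  classical
  induction S using Finset.induction_on with
  | empty => simpa using den_zero d
  | insert i S hi ih => simp only [Finset.sum_insert hi, den_add, ih]

theorem den_up (hn : ∀ e, F.n e ≤ 64) (h0 : ∀ k < 64, f k = 0) :
    F.den (d + 1) f = (X 0 : A) • F.den d fun k => f (k + 64) := by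
  rw [den, lay_congr (f' := fun _ => 0) fun i hi => h0 i (hi.trans_le (hn _)), lay_zero, zero_add]

theorem den_shl (hn : ∀ e, F.n e ≤ 64) (x : TV) : ∀ a : ℕ,
    F.den (d + a) (x.shl (64 * a)).val = (X 0 ^ a : A) • F.den d x.val
  | 0 => by
    rw [pow_zero, one_smul]
    exact congrArg _ (funext fun k => by simp [TV.val_shl])
  | a + 1 => by
    rw [← add_assoc, den_up hn fun k hk => by rw [TV.val_shl, if_neg (by omega)], pow_succ',
      mul_smul, ← den_shl hn x a]
    refine congrArg _ (congrArg _ (funext fun k => ?_))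
    simp only [TV.val_shl, show 64 * (a + 1) ≤ k + 64 ↔ 64 * a ≤ k by omega,
      show k + 64 - 64 * (a + 1) = k - 64 * a by omega]

theorem den_trunc [Fintype G] (hn : ∀ e, F.n e ≤ 64) : ∀ (m d : ℕ) {f f' : ℕ → F3},
    (∀ k < 64 * m, f k = f' k) → Neg m (F.den d f - F.den d f')
  | 0, _, _, _, _ => fun _ => by simp
  | m + 1, 0, _, _, h => Neg.of_eq (lay_congr fun i hi => h i (by have := hn 0; omega))
  | m + 1, d + 1, f, f', h => by
    rw [den, den, lay_congr (f := f) (f' := f') fun i hi => h i (by have := hn (d + 1); omega),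
      add_sub_add_left_eq_sub, ← smul_sub, add_comm m, ← pow_one (X 0 : A)]
    exact (den_trunc hn m d fun k hk => h _ (by omega)).vmul 1

theorem den_lay [Fintype G] : ∀ (d : ℕ) (f : ℕ → F3), Neg 1 (F.den d f - F.lay d f)
  | 0, _ => Neg.of_eq rfl
  | d + 1, f => by
    rw [den, add_sub_cancel_left, ← pow_one (X 0 : A)]
    exact Neg.pow le_rfl _

theorem den_hom [Fintype G] {R : Res 3 G} {s : ℕ}
    (h : ∀ e, ∀ i < F.n e, HomW R s (2 * e) (F.vec e i)) :
    ∀ (d : ℕ) (f : ℕ → F3), HomW R s (2 * d) (F.den d f)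
  | 0, _ => HomW.sum fun i hi => (h _ i (mem_range.1 hi)).cmul _
  | d + 1, _ => (HomW.sum fun i hi => (h _ i (mem_range.1 hi)).cmul _).add (den_hom h d _).vmul

/-- the family which is given by coordinates -/
def of (F : Fam G) (B : ℕ → List TV) : Fam G where
  n e := (B e).length
  vec e k := F.den e ((B e).getD k (0, 0)).val

variable {B : ℕ → List TV}

theorem of_lay (h : ∀ r ∈ B e, TV.wf r = true) (p n : ℕ) :
    (F.of B).lay e (TV.val (p, n)) = F.den e (TV.mv (B e) p n).val := by
  rw [funext (TV.mv_spec _ p n h).2, den_sum]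
  exact Finset.sum_congr rfl fun i _ => (den_mul _ _ _).symm

end Fam

end

theorem wf_win {B : ℕ → List TV} (h : ∀ e, ∀ r ∈ B e, TV.wf r = true) :
    ∀ m d, ∀ t ∈ win B m d, ∀ r ∈ t, TV.wf r = true
  | 0, _ => by simp [win]
  | _ + 1, 0 => by simpa [win] using fun a b => h 0 (a, b)
  | m + 1, d + 1 => by
    simp only [win, List.mem_cons, forall_eq_or_imp]
    exact ⟨h _, wf_win h m d⟩

theorem Fam.of_den {G : Type} [Fintype G] {F : Fam G} {B : ℕ → List TV}
    (hn : ∀ e, F.n e ≤ 64) (h : ∀ e, ∀ r ∈ B e, TV.wf r = true) : ∀ (m d p n : ℕ),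
    Neg m ((F.of B).den d (TV.val (p, n)) - F.den d (TV.mvW (win B m d) p n).val)
  | 0, _, _, _ => fun _ => by simp
  | m + 1, 0, p, n => Neg.of_eq (by
    rw [den, of_lay (h 0)]
    exact congrArg _ (funext fun k => by
      rw [win, TV.mvW, TV.mvW, TV.val_add (TV.mv_spec _ p n (h 0)).1 (TV.wf_shl TV.wf_zero _),
        TV.val_shl]
      simp))
  | m + 1, d + 1, p, n => by
    have h1 := (of_den hn h m d (Nat.shiftRight p 64) (Nat.shiftRight n 64)).vmul 1
    rw [den, of_lay (h _), win, TV.mvW, funext (TV.val_add (TV.mv_spec _ p n (h _)).1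
      (TV.wf_shl (TV.wf_mvW _ _ _ (wf_win h m d)) _)), den_add, add_sub_add_left_eq_sub,
      den_shl hn _ 1, add_comm m]
    rw [smul_sub] at h1
    convert h1 using 3
    · exact (pow_one _).symm
    · exact congrArg _ (funext fun k => (TV.val_shr (x := (p, n)) 64).symm)

/-! ### the monomial basis -/

/-- the monomials in `v₂`, `v₃`, `v₄` of degree `r ≤ 92` -/
def mlc (r : ℕ) : List (ℕ × ℕ × ℕ) :=
  (List.range 3).flatMap fun c => (List.range 8).filterMap fun b =>
    if 13 * b + 40 * c ≤ r ∧ (r - (13 * b + 40 * c)) % 4 = 0 then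
      some ((r - (13 * b + 40 * c)) / 4, b, c) else none

theorem mlT_eq : mlT = (List.range 93).map mlc := by decide +kernel

noncomputable section

/-- the exponent of a basis vector -/
def Q4.ex (q : Q4) : ℕ →₀ ℕ :=
  Finsupp.single 1 q.2.1 + Finsupp.single 2 q.2.2.1 + Finsupp.single 3 q.2.2.2

variable {G : Type} [Fintype G] [DecidableEq G]

/-- the basis vector `v₂ ^ a v₃ ^ b v₄ ^ c e_g` -/
def stv (gen : ℕ → G) (q : Q4) : G → A := Pi.single (gen q.1) (monomial q.ex 1)

/-- the monomial basis of a level -/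
def std (gen : ℕ → G) (dl : List ℕ) : Fam G where
  n e := (sl0 dl e).length
  vec e i := stv gen ((sl0 dl e).getD i 0)

/-- `dl` is the list of the degrees (half of the weights) of the generators of level `s` -/
structure Dg (R : Res 3 G) (gen : ℕ → G) (s : ℕ) (dl : List ℕ) : Prop where
  inj : ∀ i < dl.length, ∀ j < dl.length, gen i = gen j → i = j
  deg : ∀ i < dl.length, R.deg s (gen i) = 2 * dl.getD i 0
  all : ∀ g, R.deg s g ≤ 184 → ∃ i < dl.length, gen i = g

/-- the multiplier `∑ c v₁ ^ j v₂ ^ a t₁ ^ k` for a list of `(c, j, a, k)` -/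
def pol (l : List Q4) : Gam :=
  (l.map fun q => C (C (q.1 : F3) * X 0 ^ q.2.1 * X 1 ^ q.2.2.1) * X 0 ^ q.2.2.2).sum

end

/-- the meaning of a claim in level `s` -/
def Cm.Ok {G : Type} [Fintype G] [DecidableEq G] (R : Res 3 G) (gen : ℕ → G) (dl : ℕ → List ℕ)
    (s : ℕ) (c : Cm) : Prop :=
  Neg c.m (ac R s (pol c.y) ((std gen (dl s)).den c.d c.x.val) -
    (std gen (dl (s + 1))).den (c.d + c.f) c.z.val)

end Vale.Agent.P236N
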